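import Mathlib

/-!
A few independent copies catch every event of positive probability a positive fraction of times.
-/

namespace Vale.Agent.P249.Sqrt

open Finset

/-- `64 (l + 1)` copies suffice for fewer than `4 ^ (l + 1)` events of probability `1/8`. -/
theorem exists_copies {Ω Q : Type*} [Fintype Ω] [Nonempty Ω] [Fintype Q]
    (good : Q → Ω → Prop) [∀ q, DecidablePred (good q)]
    (hgood : ∀ q, Fintype.card Ω ≤ 8 * (univ.filter (good q)).card) {l : ℕ}
    (hQ : Fintype.card Q < 4 ^ (l + 1)) :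
    ∃ ξ : Fin (64 * (l + 1)) → Ω, ∀ q, l + 1 ≤ (univ.filter fun k => good q (ξ k)).card := by
  classical
  set K := 64 * (l + 1) with hK
  set g := l + 1 with hg
  set c : ℝ := (Fintype.card Ω : ℝ) with hc
  have hcpos : 0 < c := Nat.cast_pos.2 Fintype.card_pos
  let f : Q → Ω → ℝ := fun q s => if good q s then 1 / 4 else 1
  have hf0 : ∀ q s, 0 ≤ f q s := fun q s => by simp only [f]; split <;> norm_num
  let cnt : Q → (Fin K → Ω) → ℕ := fun q ω => (univ.filter fun k => good q (ω k)).card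
  have hprod : ∀ q (ω : Fin K → Ω), ∏ k, f q (ω k) = (1 / 4 : ℝ) ^ cnt q ω := by
    intro q ω
    simp only [f, cnt]
    rw [Finset.prod_ite, Finset.prod_const, Finset.prod_const_one, mul_one]
  have hsum : ∀ q, ∑ s, f q s ≤ 29 / 32 * c := by
    intro q
    simp only [f]
    rw [Finset.sum_ite, Finset.sum_const, Finset.sum_const, nsmul_eq_mul, nsmul_eq_mul, mul_one]
    have h2 := Finset.card_filter_add_card_filter_not (s := (univ : Finset Ω)) (p := good q)
    rw [Finset.card_univ] at h2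
    have h : (Fintype.card Ω : ℝ) ≤ 8 * ((univ.filter (good q)).card : ℝ) := by
      exact_mod_cast hgood q
    rw [hc, ← h2]
    rw [← h2] at h
    push_cast at h ⊢
    linarith
  by_contra hcon
  push Not at hcon
  have hlow : (c : ℝ) ^ K * (1 / 4 : ℝ) ^ g ≤ ∑ ω : Fin K → Ω, ∑ q, ∏ k, f q (ω k) := by
    calc c ^ K * (1 / 4 : ℝ) ^ g = ∑ _ω : Fin K → Ω, (1 / 4 : ℝ) ^ g := by simp [hc]
      _ ≤ _ := Finset.sum_le_sum fun ω _ => by
          obtain ⟨q, hq⟩ := hcon ω
          refine le_trans ?_ (Finset.single_le_sum (f := fun q => ∏ k, f q (ω k))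
            (fun q _ => Finset.prod_nonneg fun k _ => hf0 q _) (Finset.mem_univ q))
          rw [hprod q ω]
          exact pow_le_pow_of_le_one (by norm_num) (by norm_num) hq.le
  have hup : ∑ ω : Fin K → Ω, ∑ q, ∏ k, f q (ω k) ≤
      (Fintype.card Q : ℝ) * (29 / 32 * c) ^ K := by
    rw [Finset.sum_comm]
    calc ∑ q, ∑ ω : Fin K → Ω, ∏ k, f q (ω k) = ∑ q, (∑ s, f q s) ^ K := by
          refine Finset.sum_congr rfl fun q _ => ?_
          rw [Fintype.sum_pow]
      _ ≤ ∑ _q : Q, (29 / 32 * c) ^ K := Finset.sum_le_sum fun q _ =>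
          pow_le_pow_left₀ (Finset.sum_nonneg fun s _ => hf0 q s) (hsum q) K
      _ = _ := by simp
  have hQ' : (Fintype.card Q : ℝ) < 4 ^ (l + 1) := by exact_mod_cast hQ
  have hbig := hlow.trans hup
  rw [mul_pow, ← mul_assoc, mul_comm (c ^ K)] at hbig
  have h1 := le_of_mul_le_mul_right hbig (pow_pos hcpos K)
  rw [hg, hK, pow_mul] at h1
  have h2 : (1 / 4 : ℝ) ^ (l + 1) < 4 ^ (l + 1) * ((29 / 32 : ℝ) ^ 64) ^ (l + 1) :=
    h1.trans_lt (mul_lt_mul_of_pos_right hQ' (by positivity))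
  rw [← mul_pow] at h2
  exact absurd h2 (not_lt.2 (pow_le_pow_left₀ (by positivity) (by norm_num) (l + 1)))

end Vale.Agent.P249.Sqrt
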