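import Vale.Agent.P249.Sqrt.Levels
import Vale.Agent.P249.Sub.Assemble

/-!
The embedding with distortion polynomial in the exponent: levels below the radii catch the
distances near which balls grow quickly, and the block part catches the others.
-/

namespace Vale.Agent.P249.Sqrt

open Finset Vale.Agent.P249.Sub Vale.Agent.P249.Pow

variable {p : ℝ} [hp : Fact (1 ≤ ENNReal.ofReal p)]

/-- Distortion of the embedding. -/
noncomputable def sqrtDist (Lam q : ℕ) : ℝ := 8192 * (levLip Lam (q + 1) + blockLip Lam)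

/-- Dimension of the embedding. -/
noncomputable def sqrtDim (p : ℝ) (l n : ℕ) : ℕ :=
  64 * (2 * Nat.log 2 n + 2) * ⌊radialDim p (3000 * l) n⌋₊ +
    16 * (2 * Nat.log 2 n + 2) * ⌊radialDim p (6000 * l) n⌋₊

/-- The embedding of a finite set. -/
theorem exists_sqrtEmbedding {V I : Type*} [Fintype V] [MetricSpace V] [Fintype I]
    (x : V → Ell p I) (hx : ∀ v w, dist v w = ‖x v - x w‖) (hV : 2 ≤ Fintype.card V)
    {l Lam q : ℕ} (hl : 1 ≤ l) (hLam : 1 ≤ Lam) (hn : Fintype.card V ≤ 2 ^ (Lam * l))
    (hq : Fintype.card V ≤ (2 ^ l) ^ q) (hbig : 8192 * slope0 Lam ≤ (2 : ℝ) ^ (1500 * l))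
    (hbig' : 2048 * levSlope Lam ≤ (2 : ℝ) ^ (1500 * l)) :
    ∃ (d : ℕ) (f : V → Ell p (Fin d)), d ≤ sqrtDim p l (Fintype.card V) ∧
      ∀ v w, 1 / 8192 * dist v w ≤ ‖f v - f w‖ ∧
        ‖f v - f w‖ ≤ sqrtDist Lam q * (1 / 8192) * dist v w := by
  classical
  set n := Fintype.card V with hn'
  set N := 2 ^ l with hN'
  have hN : 1 ≤ N := Nat.one_le_two_pow
  let m : ℕ → ℕ := fun i => max 2 (cellSize n N i)
  have hm2 : ∀ i, 2 ≤ m i := fun i => le_max_left _ _
  have hmn : ∀ i, m i ≤ n := fun i => by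
    refine max_le hV ?_
    have hP : 0 < N ^ i := pow_pos hN i
    rw [cellSize, Nat.div_le_iff_le_mul hP]
    have : n ≤ n * N ^ i := Nat.le_mul_of_pos_right n hP
    omega
  choose r hr0 hrL hrhigh hrlow using fun i => exists_radius (V := V) (hm2 i) (hmn i)
  have hn1 : n ≤ 2 ^ (Lam * (1500 * l)) :=
    hn.trans (Nat.pow_le_pow_right two_pos (Nat.mul_le_mul_left _ (by omega)))
  obtain ⟨dA, GA, hdA, hGAu, hGAl⟩ := exists_levels x hx (L := 1500 * l) (by omega) hLam hn1 hbig'
    (k := q) (fun i => r (i : ℕ)) (fun i => hr0 _) (fun i => hrL _)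
  obtain ⟨dB, GB, hdB, hGBu, hGBl⟩ := exists_blocks x hx (L := 1500 * l) (by omega) hn1 hbig
  rw [show 4 * (1500 * l) = 6000 * l by ring] at hdB
  rw [show 2 * (1500 * l) = 3000 * l by ring] at hdA
  refine ⟨dA + dB, fun v => pad finSumFinEquiv.toEmbedding (cat (GA v) (GB v)),
    Nat.add_le_add hdA hdB, fun v w => ?_⟩
  rw [pad_sub, norm_pad, cat_sub]
  set D := dist v w with hD
  have hD0 : 0 ≤ D := dist_nonneg
  constructor
  · rw [one_div, inv_mul_le_iff₀ (by positivity)]
    rcases eq_or_ne v w with rfl | hvw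
    · rw [hD, dist_self]; positivity
    rcases hGBl v w hvw with h | ⟨j, hj1, hj2, hgr⟩
    · rw [← hD] at h
      have := le_norm_cat_right (p := p) (GA v - GA w) (GB v - GB w)
      linarith [norm_nonneg (GB v - GB w)]
    rw [← hD] at hj1 hj2
    set A := ballCount v (scale (1500 * l) (j + 16)) with hA
    set B := ballCount v (scale (1500 * l) (j + 19)) with hB
    have hA1 : 1 ≤ A := Finset.card_pos.2
      ⟨v, Finset.mem_filter.2 ⟨Finset.mem_univ v, by rw [dist_self]; exact (scale_pos _ _).le⟩⟩
    have hB1 : 1 ≤ B := Finset.card_pos.2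
      ⟨v, Finset.mem_filter.2 ⟨Finset.mem_univ v, by rw [dist_self]; exact (scale_pos _ _).le⟩⟩
    have hAB : 2 ^ (2 * l) * A < B := by
      rw [logBall, logBall] at hgr
      change _ < Real.log ((max 1 B : ℕ) : ℝ) - Real.log ((max 1 A : ℕ) : ℝ) at hgr
      rw [max_eq_right hA1, max_eq_right hB1] at hgr
      have hAR : (0 : ℝ) < A := Nat.cast_pos.2 hA1
      have h2 : Real.log ((2 ^ (2 * l) * A : ℕ) : ℝ) < Real.log (B : ℝ) := by
        push_cast
        rw [Real.log_mul (by positivity) hAR.ne', Real.log_pow]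
        push_cast at hgr ⊢
        have h3 := mul_le_mul_of_nonneg_left Real.log_two_lt_d9.le
          (show (0 : ℝ) ≤ 2 * l by positivity)
        have h4 : (1 : ℝ) ≤ l := by exact_mod_cast hl
        linarith
      exact_mod_cast (Real.log_lt_log_iff (by positivity) (Nat.cast_pos.2 hB1)).1 h2
    have hBn : B ≤ n := Finset.card_le_univ _
    have hmq : m q ≤ B := by
      refine max_le ?_ ((cellSize_le hN).trans ?_)
      · have : 1 * 1 ≤ 2 ^ (2 * l) * A := Nat.mul_le_mul Nat.one_le_two_pow hA1
        omega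
      · have h1 : n / N ^ q ≤ 1 := by
          rw [Nat.div_le_iff_le_mul (pow_pos hN q)]; omega
        have : 1 * 1 ≤ 2 ^ (2 * l) * A := Nat.mul_le_mul Nat.one_le_two_pow hA1
        omega
    have hex : ∃ i, m i ≤ B := ⟨q, hmq⟩
    set i := Nat.find hex with hi
    have hiB : m i ≤ B := Nat.find_spec hex
    have hiq : i ≤ q := Nat.find_min' hex hmq
    have hAi : A < m i := by
      rcases Nat.eq_zero_or_pos i with h0 | h0
      · rw [h0]
        have h1 : n ≤ m 0 := by simp only [m, cellSize_zero]; exact le_max_right _ _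
        have : A * 1 ≤ 2 ^ (2 * l) * A := by
          rw [Nat.mul_comm]; exact Nat.mul_le_mul_right _ Nat.one_le_two_pow
        omega
      · have h1 : B < m (i - 1) := not_le.1 (Nat.find_min hex (by omega : i - 1 < i))
        have h2 : m (i - 1) ≤ N * m i := by
          refine max_le ?_ ?_
          · exact (hm2 i).trans (Nat.le_mul_of_pos_left _ hN)
          · refine (cellSize_step hN).trans ?_
            rw [Nat.sub_add_cancel h0]
            exact Nat.mul_le_mul_left _ (le_max_right _ _)
        by_contra hle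
        push Not at hle
        have h3 : N * m i ≤ 2 ^ (2 * l) * A :=
          Nat.mul_le_mul (Nat.pow_le_pow_right two_pos (by omega)) hle
        omega
    have hrup : r i v ≤ scale (1500 * l) (j + 19) := by
      by_contra hlt
      exact absurd (hrlow i v _ (not_le.1 hlt)) (not_lt.2 hiB)
    have hrdown : scale (1500 * l) (j + 16) < r i v := by
      by_contra hle
      have := (hrhigh i v).trans (ballCount_mono v (not_lt.1 hle))
      omega
    have h15 : (2 : ℝ) ^ (15 * (1500 * l)) * D < r i v := by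
      refine lt_of_le_of_lt ?_ hrdown
      have h := scale_add (1500 * l) (j + 1) 15
      rw [show j + 1 + ((15 : ℕ) : ℤ) = j + 16 by push_cast; ring] at h
      rw [h, show 15 * (1500 * l) = 1500 * l * 15 by ring]
      exact mul_le_mul_of_nonneg_left hj2.le (by positivity)
    have h20 : r i v ≤ (2 : ℝ) ^ (20 * (1500 * l)) * D := by
      have h := scale_add (1500 * l) j 19
      rw [show j + ((19 : ℕ) : ℤ) = j + 19 by push_cast; ring] at h
      refine (hrup.trans (le_of_eq h)).trans (mul_le_mul ?_ hj1 (scale_pos _ _).le (by positivity))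
      exact pow_le_pow_right₀ one_le_two (by omega)
    have hres := hGAl v w ⟨i, by omega⟩ h15.le h20
    rw [← hD] at hres
    have := le_norm_cat_left (p := p) (GA v - GA w) (GB v - GB w)
    linarith
  · refine (norm_cat_le _ _).trans ?_
    have h1 := hGAu v w
    have h2 := hGBu v w
    have e' : sqrtDist Lam q * (1 / 8192) * D = (levLip Lam (q + 1) + blockLip Lam) * D := by
      rw [sqrtDist]; ring
    rw [e']
    linarith

end Vale.Agent.P249.Sqrt
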