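import Vale.Agent.P249.Pow.Growth
import Vale.Agent.P249.Sqrt.Embed

/-!
Dimension and distortion of the embedding as functions of the number of points.
-/

namespace Vale.Agent.P249.Sqrt

open Filter Vale.Agent.P249.Sub Vale.Agent.P249.Pow

/-- The distortion grows at most quadratically in `G`. -/
lemma exists_rate {p : ℝ} (hp : 1 ≤ p) :
    ∃ a : ℝ, 1 ≤ a ∧ ∀ G : ℕ, 1 ≤ G →
      3 * sqrtDist (baseExp p * G) (baseExp p * G) ≤ a * ((G : ℝ) * G) := by
  set c : ℝ := (baseExp p : ℝ) with hc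
  have hc1 : 1 ≤ c := by rw [hc]; exact_mod_cast baseExp_pos hp
  set S : ℝ := 4 * (4 * (512 * c) + 2) with hS
  set T : ℝ := 24 + 180 * c with hT
  set a : ℝ := 3 * 8192 *
    ((14 + 10 * S * T + 2 * (2 * c) + 540 * S * c) + (1 + 208 * T * T + 4320 * T * c)) with ha
  have ha1 : 1 ≤ a := by
    have h1 : 0 ≤ 10 * S * T + 2 * (2 * c) + 540 * S * c + 208 * T * T + 4320 * T * c := by
      positivity
    rw [ha]; linarith
  refine ⟨a, ha1, fun G hG => ?_⟩
  have hG1 : (1 : ℝ) ≤ G := by exact_mod_cast hG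
  have h4 : (1 : ℝ) ≤ (G : ℝ) * G := one_le_mul_of_one_le_of_one_le hG1 hG1
  have h5 : (G : ℝ) ≤ (G : ℝ) * G := le_mul_of_one_le_left (by linarith) hG1
  unfold sqrtDist levLip levSlope radiiCount blockLip slope0
  push_cast
  rw [← hc]
  have hk : c * G + 1 ≤ 2 * c * ((G : ℝ) * G) := by
    have e1 := mul_le_mul_of_nonneg_left h5 (by linarith : (0 : ℝ) ≤ c)
    have e2 := mul_le_mul hc1 h4 zero_le_one (by linarith)
    linarith
  have hS' : 4 * (4 * (512 * (c * G)) + 2) ≤ S * G := by rw [hS]; linarith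
  have hT' : 24 + 180 * (c * G) ≤ T * G := by rw [hT]; linarith
  calc 3 * (8192 * ((14 + 10 * (4 * (4 * (512 * (c * G)) + 2)) * (24 + 180 * (c * G)) +
        2 * (c * G + 1) + 540 * (4 * (4 * (512 * (c * G)) + 2)) * (c * G)) +
        (1 + 208 * (24 + 180 * (c * G)) * (24 + 180 * (c * G)) +
          4320 * (24 + 180 * (c * G)) * (c * G))))
      ≤ 3 * (8192 * ((14 * ((G : ℝ) * G) + 10 * (S * G) * (T * G) +
        2 * (2 * c * ((G : ℝ) * G)) + 540 * (S * G) * (c * G)) +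
        (1 * ((G : ℝ) * G) + 208 * (T * G) * (T * G) + 4320 * (T * G) * (c * G)))) := by
        gcongr <;> linarith
    _ = a * ((G : ℝ) * G) := by rw [ha]; ring

/-- Eventually the dimension is at most `n ^ (2 / G)`. -/
lemma eventually_sqrtDim {p : ℝ} (hp : 1 ≤ p) {G : ℕ} (hG : 1 ≤ G) :
    ∀ᶠ n : ℕ in atTop, ∃ l : ℕ, 1 ≤ l ∧ n ≤ 2 ^ (baseExp p * G * l) ∧
      n ≤ (2 ^ l) ^ (baseExp p * G) ∧
      8192 * slope0 (baseExp p * G) ≤ (2 : ℝ) ^ (1500 * l) ∧
      2048 * levSlope (baseExp p * G) ≤ (2 : ℝ) ^ (1500 * l) ∧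
      (sqrtDim p l n : ℝ) ≤ (n : ℝ) ^ (2 * (G : ℝ)⁻¹) := by
  set Lam := baseExp p * G with hLam
  have hLampos : 1 ≤ Lam := Nat.one_le_iff_ne_zero.2 (by
    have := baseExp_pos hp
    rw [hLam]; positivity)
  set e := radExp p
  have hlc := liftConst_pos p
  set R : ℝ := (6 * liftConst p) ^ e * 2 ^ baseExp p with hR
  have hR0 : 0 ≤ R := by positivity
  set C : ℝ := 480 * R with hC
  have hC0 : 0 < C := by positivity
  set N0 := max ⌈8192 * slope0 Lam⌉₊ ⌈2048 * levSlope Lam⌉₊ with hN0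
  have hGr : (0 : ℝ) < (G : ℝ)⁻¹ := by positivity
  have hlim : Tendsto (fun n : ℕ => Real.log n) atTop atTop :=
    Real.tendsto_log_atTop.comp tendsto_natCast_atTop_atTop
  have hsmall : ∀ᶠ n : ℕ in atTop, C * Real.log n ^ (e + 1) ≤ (n : ℝ) ^ ((G : ℝ)⁻¹) := by
    have h := ((isLittleO_log_rpow_rpow_atTop ((e + 1 : ℕ) : ℝ) hGr).comp_tendsto
      tendsto_natCast_atTop_atTop).def (show (0 : ℝ) < C⁻¹ by positivity)
    filter_upwards [h, hlim.eventually_ge_atTop 0] with n hn hn0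
    simp only [Function.comp_apply, Real.rpow_natCast, Real.norm_eq_abs,
      abs_of_nonneg (pow_nonneg hn0 (e + 1)),
      abs_of_nonneg (Real.rpow_nonneg (Nat.cast_nonneg n) ((G : ℝ)⁻¹))] at hn
    calc C * Real.log n ^ (e + 1) ≤ C * (C⁻¹ * (n : ℝ) ^ ((G : ℝ)⁻¹)) :=
          mul_le_mul_of_nonneg_left hn hC0.le
      _ = _ := by field_simp
  filter_upwards [eventually_ge_atTop (2 ^ (Lam * N0)), hlim.eventually_ge_atTop 1, hsmall]
    with n hn hx1 hsm
  have hn1 : 1 ≤ n := le_trans Nat.one_le_two_pow hn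
  set x := Real.log n with hx
  set ln := Nat.log 2 n with hln
  have hlnx : (ln : ℝ) ≤ 2 * x := natLog_le n hn1
  set l := ln / Lam + 1 with hl
  have hnl : n ≤ 2 ^ (Lam * l) := by
    refine (Nat.lt_pow_succ_log_self one_lt_two n).le.trans (Nat.pow_le_pow_right two_pos ?_)
    have := Nat.lt_div_mul_add (a := ln) (b := Lam) (by omega)
    rw [hl, Nat.mul_add, Nat.mul_comm, mul_one]
    omega
  have h2 : (N0 : ℝ) ≤ (2 : ℝ) ^ (1500 * l) := by
    have h1 : N0 ≤ ln / Lam := by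
      rw [Nat.le_div_iff_mul_le (by omega), Nat.mul_comm]
      exact Nat.le_log_of_pow_le one_lt_two hn
    exact_mod_cast le_trans (by omega : N0 ≤ 1500 * l) Nat.lt_two_pow_self.le
  refine ⟨l, Nat.le_add_left 1 _, hnl, ?_, ?_, ?_, ?_⟩
  · rwa [← pow_mul, Nat.mul_comm]
  · refine (Nat.le_ceil _).trans (le_trans ?_ h2)
    exact_mod_cast le_max_left _ _
  · refine (Nat.le_ceil _).trans (le_trans ?_ h2)
    exact_mod_cast le_max_right _ _
  set y := (n : ℝ) ^ ((G : ℝ)⁻¹) with hy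
  have hy1 : 1 ≤ y := Real.one_le_rpow (by exact_mod_cast hn1) hGr.le
  have hrad : ∀ L, L ≤ 7500 * l → radialDim p L n ≤ R * (x ^ e * y) := fun L hL =>
    (radialDim_le hn1 hx1 hG rfl hL).trans (le_of_eq (by rw [hR]; ring))
  have hxy : 1 ≤ x ^ e * y := one_le_mul_of_one_le_of_one_le (one_le_pow₀ hx1) hy1
  have hblock : ∀ k, k ≤ 7500 → (⌊radialDim p (k * l) n⌋₊ : ℝ) ≤ R * (x ^ e * y) := fun k hk =>
    (Nat.floor_le (by unfold radialDim; positivity)).trans (hrad _ (Nat.mul_le_mul_right _ hk))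
  calc (sqrtDim p l n : ℝ)
      = 64 * (2 * (ln : ℝ) + 2) * ⌊radialDim p (3000 * l) n⌋₊ +
        16 * (2 * (ln : ℝ) + 2) * ⌊radialDim p (6000 * l) n⌋₊ := by
        unfold sqrtDim
        push_cast
        rfl
    _ ≤ 64 * (6 * x) * (R * (x ^ e * y)) + 16 * (6 * x) * (R * (x ^ e * y)) :=
        add_le_add
          (mul_le_mul (by linarith) (hblock 3000 (by norm_num)) (Nat.cast_nonneg _) (by positivity))
          (mul_le_mul (by linarith) (hblock 6000 (by norm_num)) (Nat.cast_nonneg _) (by positivity))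
    _ = C * x ^ (e + 1) * y := by rw [hC]; ring
    _ ≤ y * y := by gcongr
    _ = _ := by
        rw [hy, two_mul, Real.rpow_add (by exact_mod_cast hn1)]

end Vale.Agent.P249.Sqrt
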