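import Vale.Agent.P249.Pow.Window

/-!
Random ball partitions: for a random order and a random radius, a small ball is usually inside
one cell when the growth of the balls around it is small.
-/

namespace Vale.Agent.P249.Sqrt

open Finset Vale.Agent.P249.Sub Vale.Agent.P249.Pow

lemma card_first_mul {V : Type*} [Fintype V] [DecidableEq V] {n : ℕ} (U : Finset V)
    {z : V} (hz : z ∈ U)
    [DecidablePred fun σ : V ≃ Fin n => ∀ u ∈ U, σ z ≤ σ u] :
    U.card * (univ.filter fun σ : V ≃ Fin n => ∀ u ∈ U, σ z ≤ σ u).card =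
      Fintype.card (V ≃ Fin n) := by
  classical
  let F : V → Finset (V ≃ Fin n) := fun z => univ.filter fun σ => ∀ u ∈ U, σ z ≤ σ u
  have hFz : (univ.filter fun σ : V ≃ Fin n => ∀ u ∈ U, σ z ≤ σ u) = F z := by
    ext σ; simp [F]
  rw [hFz]
  have heq : ∀ z' ∈ U, (F z').card = (F z).card := by
    intro z' hz'
    have key : ∀ a ∈ U, ∀ b ∈ U, ∀ σ ∈ F a, (Equiv.swap a b).trans σ ∈ F b := by
      intro a ha b hb σ hσ
      refine Finset.mem_filter.2 ⟨Finset.mem_univ _, fun u hu => ?_⟩
      simp only [Equiv.trans_apply, Equiv.swap_apply_right]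
      refine (Finset.mem_filter.1 hσ).2 _ ?_
      rw [Equiv.swap_apply_def]
      split_ifs <;> assumption
    have hinj : ∀ a b : V, Function.Injective fun σ : V ≃ Fin n => (Equiv.swap a b).trans σ := by
      intro a b σ τ h
      ext v
      have := congrArg (fun e : V ≃ Fin n => ((e (Equiv.swap a b v)) : ℕ)) h
      simpa using this
    exact le_antisymm
      (Finset.card_le_card_of_injOn _ (key z' hz' z hz) (hinj z' z).injOn)
      (Finset.card_le_card_of_injOn _ (key z hz z' hz') (hinj z z').injOn)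
  have hdisj : (U : Set V).PairwiseDisjoint F := by
    intro a ha b hb hab
    refine Finset.disjoint_left.2 fun σ h1 h2 => hab ?_
    exact σ.injective (le_antisymm ((Finset.mem_filter.1 h1).2 b hb) ((Finset.mem_filter.1 h2).2 a ha))
  have huniv : U.biUnion F = univ := by
    refine Finset.eq_univ_of_forall fun σ => ?_
    obtain ⟨a, ha, hmin⟩ := U.exists_min_image σ ⟨z, hz⟩
    exact Finset.mem_biUnion.2 ⟨a, ha, Finset.mem_filter.2 ⟨Finset.mem_univ _, hmin⟩⟩
  have hc := Finset.card_biUnion hdisj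
  rw [huniv, Finset.card_univ, Finset.sum_congr rfl heq, Finset.sum_const, smul_eq_mul] at hc
  exact hc.symm

variable {V : Type*} [Fintype V] [PseudoMetricSpace V]

/-- The centre of `v`: the first point, in the order, of its ball of radius `ρ`. -/
noncomputable def centre (σ : V ≃ Fin (Fintype.card V)) (ρ : ℝ) (v : V) : V := by
  classical exact (
    if h : (univ.filter fun y => dist v y ≤ ρ).Nonempty then
      σ.symm (((univ.filter fun y => dist v y ≤ ρ).image σ).min' (h.image _))
    else v)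

lemma centre_spec (σ : V ≃ Fin (Fintype.card V)) {ρ : ℝ} (hρ : 0 ≤ ρ) (v : V) :
    dist v (centre σ ρ v) ≤ ρ ∧ ∀ y, dist v y ≤ ρ → σ (centre σ ρ v) ≤ σ y := by
  classical
  have h : (univ.filter fun y => dist v y ≤ ρ).Nonempty :=
    ⟨v, Finset.mem_filter.2 ⟨Finset.mem_univ v, by rw [dist_self]; exact hρ⟩⟩
  rw [centre, dif_pos h]
  set S := (univ.filter fun y => dist v y ≤ ρ).image σ with hS
  constructor
  · obtain ⟨y, hy, hσy⟩ := Finset.mem_image.1 (S.min'_mem (h.image _))
    rw [← hσy, Equiv.symm_apply_apply]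
    exact (Finset.mem_filter.1 hy).2
  · intro y hy
    rw [Equiv.apply_symm_apply]
    exact S.min'_le _ (Finset.mem_image_of_mem _ (Finset.mem_filter.2 ⟨Finset.mem_univ y, hy⟩))

/-- `v` is deep inside its cell. -/
def Padded (σ : V ≃ Fin (Fintype.card V)) (ρ τ : ℝ) (v : V) : Prop :=
  ∀ y, dist v y ≤ 2 * τ → centre σ ρ y = centre σ ρ v

lemma padded_of_first {σ : V ≃ Fin (Fintype.card V)} {ρ τ : ℝ} (hρ : 0 ≤ ρ) (hτ : 0 ≤ τ)
    (v : V) {z : V} (hz : dist v z ≤ ρ - 2 * τ)
    (hfirst : ∀ y, dist v y ≤ ρ + 2 * τ → σ z ≤ σ y) : Padded σ ρ τ v := by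
  have key : ∀ y, dist v y ≤ 2 * τ → centre σ ρ y = z := by
    intro y hy
    obtain ⟨h1, h2⟩ := centre_spec σ hρ y
    refine σ.injective (le_antisymm (h2 z ?_) (hfirst _ ?_))
    · linarith [dist_triangle y v z, dist_comm y v]
    · linarith [dist_triangle v y (centre σ ρ y)]
  intro y hy
  rw [key y hy, key v (by rw [dist_self]; linarith)]

/-- The probability of not being padded is at most the growth divided by the number of radii. -/
lemma card_padded [DecidableEq V] {R : ℝ} (hR : 0 ≤ R) {T0 : ℕ} (hT0 : 4 ≤ T0) (v : V) {Kg : ℝ}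
    (hgrow : logBall v (4 * R) - logBall v (R / 4) ≤ Kg)
    [DecidablePred fun ω : (V ≃ Fin (Fintype.card V)) × Fin T0 =>
      Padded ω.1 (R * (1 + (ω.2 : ℕ) / (T0 : ℝ))) (R / T0) v] :
    ((T0 : ℝ) - 4 * Kg) * Fintype.card (V ≃ Fin (Fintype.card V)) ≤
      ((univ.filter fun ω : (V ≃ Fin (Fintype.card V)) × Fin T0 =>
        Padded ω.1 (R * (1 + (ω.2 : ℕ) / (T0 : ℝ))) (R / T0) v).card : ℝ) := by
  classical
  have hT : (4 : ℝ) ≤ T0 := by exact_mod_cast hT0
  set τ := R / T0 with hτ
  have hτ0 : 0 ≤ τ := div_nonneg hR (by linarith)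
  have hτR : R = T0 * τ := by rw [hτ]; field_simp
  set c := (Fintype.card (V ≃ Fin (Fintype.card V)) : ℝ) with hc
  let rad : ℕ → ℝ := fun j => R * (1 + (j : ℝ) / T0)
  have hrad : ∀ j : ℕ, rad j = R + j * τ := fun j => by simp only [rad, hτ]; field_simp
  let g : ℕ → ℝ := fun j => logBall v (R + ((j : ℝ) - 2) * τ)
  have hg : Monotone g := fun i i' h => logBall_mono v (by
    have : (i : ℝ) ≤ i' := by exact_mod_cast h
    nlinarith)
  let P : Fin T0 → Finset (V ≃ Fin (Fintype.card V)) := fun j =>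
    univ.filter fun σ => Padded σ (rad j) τ v
  have hone : ∀ j : Fin T0, c * (1 - (g ((j : ℕ) + 4) - g j)) ≤ ((P j).card : ℝ) := by
    intro j
    set U := univ.filter fun y => dist v y ≤ rad j + 2 * τ with hU
    set I := univ.filter fun y => dist v y ≤ rad j - 2 * τ with hI
    have hj0 : (0 : ℝ) ≤ (j : ℕ) * τ := mul_nonneg (Nat.cast_nonneg _) hτ0
    have h2τ : 2 * τ ≤ R := by
      rw [hτR]; exact mul_le_mul_of_nonneg_right (by linarith) hτ0
    have hIne : I.Nonempty := ⟨v, Finset.mem_filter.2 ⟨Finset.mem_univ v, by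
      rw [dist_self, hrad]; linarith⟩⟩
    have hIU : I ⊆ U := fun y hy => by
      simp only [hI, hU, Finset.mem_filter, Finset.mem_univ, true_and] at hy ⊢
      linarith
    let F : V → Finset (V ≃ Fin (Fintype.card V)) := fun z =>
      univ.filter fun σ => ∀ u ∈ U, σ z ≤ σ u
    have hsub : I.biUnion F ⊆ P j := by
      intro σ hσ
      obtain ⟨z, hz, hf⟩ := Finset.mem_biUnion.1 hσ
      refine Finset.mem_filter.2 ⟨Finset.mem_univ _, padded_of_first ?_ hτ0 v
        (Finset.mem_filter.1 hz).2 fun y hy => ?_⟩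
      · rw [hrad]; linarith
      · exact (Finset.mem_filter.1 hf).2 y (Finset.mem_filter.2 ⟨Finset.mem_univ y, hy⟩)
    have hdisj : (I : Set V).PairwiseDisjoint F := by
      intro a ha b hb hab
      refine Finset.disjoint_left.2 fun σ h1 h2 => hab ?_
      exact σ.injective (le_antisymm ((Finset.mem_filter.1 h1).2 b (hIU hb))
        ((Finset.mem_filter.1 h2).2 a (hIU ha)))
    have hUpos : (0 : ℝ) < U.card := Nat.cast_pos.2 (hIne.mono hIU).card_pos
    have hIpos : (0 : ℝ) < I.card := Nat.cast_pos.2 hIne.card_pos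
    have hmul : (I.card : ℝ) * c = U.card * ((I.biUnion F).card : ℝ) := by
      rw [Finset.card_biUnion hdisj]
      have h : ∀ z ∈ I, U.card * (F z).card = Fintype.card (V ≃ Fin (Fintype.card V)) :=
        fun z hz => card_first_mul U (hIU hz)
      have e : U.card * ∑ z ∈ I, (F z).card =
          I.card * Fintype.card (V ≃ Fin (Fintype.card V)) := by
        rw [Finset.mul_sum, Finset.sum_congr rfl h, Finset.sum_const, smul_eq_mul]
      rw [hc]
      exact_mod_cast e.symm
    have hlog : 1 - (I.card : ℝ) / U.card ≤ g ((j : ℕ) + 4) - g j := by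
      have e1 : R + ((((j : ℕ) + 4 : ℕ) : ℝ) - 2) * τ = rad j + 2 * τ := by
        rw [hrad]; push_cast; ring
      have e2 : R + (((j : ℕ) : ℝ) - 2) * τ = rad j - 2 * τ := by rw [hrad]; ring
      simp only [g]
      rw [e1, e2, logBall, logBall]
      change _ ≤ Real.log ((max 1 U.card : ℕ) : ℝ) - Real.log ((max 1 I.card : ℕ) : ℝ)
      rw [max_eq_right (Nat.one_le_iff_ne_zero.2 (hIne.mono hIU).card_pos.ne'),
        max_eq_right (Nat.one_le_iff_ne_zero.2 hIne.card_pos.ne'),
        ← Real.log_div hUpos.ne' hIpos.ne']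
      refine le_trans (le_of_eq ?_) (Real.one_sub_inv_le_log_of_pos (div_pos hUpos hIpos))
      rw [inv_div]
    calc c * (1 - (g ((j : ℕ) + 4) - g j)) ≤ c * ((I.card : ℝ) / U.card) :=
          mul_le_mul_of_nonneg_left (by linarith) (Nat.cast_nonneg _)
      _ = ((I.biUnion F).card : ℝ) := by
          rw [mul_div_assoc', div_eq_iff hUpos.ne']; linarith
      _ ≤ _ := by exact_mod_cast Finset.card_le_card hsub
  have hsum : ∑ j : Fin T0, (g ((j : ℕ) + 4) - g j) ≤ 4 * Kg := by
    rw [Fin.sum_univ_eq_sum_range (fun j => g (j + 4) - g j) T0]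
    refine (sum_shift_le hg T0 4).trans ?_
    push_cast
    refine mul_le_mul_of_nonneg_left (le_trans (sub_le_sub (logBall_mono v ?_)
      (logBall_mono v ?_)) hgrow) (by norm_num)
    · push_cast
      have := mul_le_mul_of_nonneg_right (show (2 : ℝ) ≤ T0 by linarith) hτ0
      linarith
    · push_cast
      have := mul_le_mul_of_nonneg_right (show (8 : ℝ) / 3 ≤ T0 by linarith) hτ0
      linarith
  have hfib : ((univ.filter fun ω : (V ≃ Fin (Fintype.card V)) × Fin T0 =>
      Padded ω.1 (R * (1 + (ω.2 : ℕ) / (T0 : ℝ))) τ v).card : ℝ) =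
      ∑ j, ((P j).card : ℝ) := by
    rw [← Nat.cast_sum]
    congr 1
    rw [Finset.card_filter, Fintype.sum_prod_type_right]
    refine Finset.sum_congr rfl fun j _ => ?_
    rw [← Finset.card_filter]
    congr 1
    ext σ
    simp [P, rad]
  refine le_trans ?_ (le_of_eq (hfib.symm.trans (by congr 2; ext ω; simp [hτ])))
  refine le_trans ?_ (Finset.sum_le_sum fun j _ => hone j)
  rw [← Finset.mul_sum, Finset.sum_sub_distrib, Finset.sum_const, Finset.card_univ,
    Fintype.card_fin, nsmul_eq_mul, mul_one, mul_comm c]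
  refine mul_le_mul_of_nonneg_right ?_ (Nat.cast_nonneg _)
  linarith

/-- Distance to the other cells, capped at `τ` and normalised. -/
noncomputable def cellWeight (σ : V ≃ Fin (Fintype.card V)) (ρ τ : ℝ) (v : V) : ℝ := by
  classical exact (
    if h : (univ.filter fun y => centre σ ρ y ≠ centre σ ρ v).Nonempty then
      min 1 (((univ.filter fun y => centre σ ρ y ≠ centre σ ρ v).inf' h (dist v)) / τ)
    else 1)

lemma cellWeight_le_one (σ : V ≃ Fin (Fintype.card V)) (ρ τ : ℝ) (v : V) :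
    cellWeight σ ρ τ v ≤ 1 := by
  classical
  rw [cellWeight]
  split
  · exact min_le_left _ _
  · exact le_rfl

lemma cellWeight_nonneg (σ : V ≃ Fin (Fintype.card V)) {ρ τ : ℝ} (hτ : 0 < τ) (v : V) :
    0 ≤ cellWeight σ ρ τ v := by
  classical
  rw [cellWeight]
  split
  · exact le_min zero_le_one (div_nonneg (Finset.le_inf' _ _ fun y _ => dist_nonneg) hτ.le)
  · exact zero_le_one

lemma cellWeight_le (σ : V ≃ Fin (Fintype.card V)) {ρ τ : ℝ} (hτ : 0 < τ) {v w : V}
    (h : centre σ ρ w ≠ centre σ ρ v) : cellWeight σ ρ τ v ≤ dist v w / τ := by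
  classical
  have hne : (univ.filter fun y => centre σ ρ y ≠ centre σ ρ v).Nonempty :=
    ⟨w, Finset.mem_filter.2 ⟨Finset.mem_univ w, h⟩⟩
  rw [cellWeight, dif_pos hne]
  exact (min_le_right _ _).trans (div_le_div_of_nonneg_right
    (Finset.inf'_le _ (Finset.mem_filter.2 ⟨Finset.mem_univ w, h⟩)) hτ.le)

lemma cellWeight_lip (σ : V ≃ Fin (Fintype.card V)) {ρ τ : ℝ} (hτ : 0 < τ) {v w : V}
    (h : centre σ ρ v = centre σ ρ w) :
    cellWeight σ ρ τ v - cellWeight σ ρ τ w ≤ dist v w / τ := by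
  classical
  rcases (univ.filter fun y => centre σ ρ y ≠ centre σ ρ w).eq_empty_or_nonempty with he | hne
  · have hw : cellWeight σ ρ τ w = 1 := by
      rw [cellWeight, dif_neg (Finset.not_nonempty_iff_eq_empty.2 he)]
    rw [hw]
    linarith [cellWeight_le_one σ ρ τ v, div_nonneg (dist_nonneg (x := v) (y := w)) hτ.le]
  obtain ⟨y, hy, hymin⟩ := Finset.exists_mem_eq_inf' hne (dist w)
  have hy' : centre σ ρ y ≠ centre σ ρ v := by rw [h]; exact (Finset.mem_filter.1 hy).2
  have h1 := cellWeight_le (τ := τ) σ hτ hy'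
  have hw : cellWeight σ ρ τ w = min 1 (dist w y / τ) := by rw [cellWeight, dif_pos hne, hymin]
  rw [hw]
  have h0 := div_nonneg (dist_nonneg (x := v) (y := w)) hτ.le
  rcases min_cases (1 : ℝ) (dist w y / τ) with ⟨e, -⟩ | ⟨e, -⟩ <;> rw [e]
  · linarith [cellWeight_le_one σ ρ τ v]
  · have h2 := div_le_div_of_nonneg_right (dist_triangle v w y) hτ.le
    rw [add_div] at h2
    linarith

lemma cellWeight_eq_one (σ : V ≃ Fin (Fintype.card V)) {ρ τ : ℝ} (hτ : 0 < τ) {v : V}
    (h : ∀ y, dist v y ≤ τ → centre σ ρ y = centre σ ρ v) : cellWeight σ ρ τ v = 1 := by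
  classical
  rw [cellWeight]
  split
  · refine min_eq_left ?_
    rw [le_div_iff₀ hτ, one_mul]
    refine Finset.le_inf' _ _ fun y hy => ?_
    by_contra hlt
    exact (Finset.mem_filter.1 hy).2 (h y (le_of_lt (not_le.1 hlt)))
  · rfl

end Vale.Agent.P249.Sqrt
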