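import Vale.Agent.P249.Pow.Blocks
import Vale.Agent.P249.Sqrt.Padded

/-!
A single level: truncations by random partitions at the levels just below prescribed radii,
compressed, smoothed and superposed with random signs.
-/

namespace Vale.Agent.P249.Sqrt

open Finset Vale.Agent.P249.Sub Vale.Agent.P249.Pow

/-- Number of radii used by one random partition. -/
def radiiCount (Lam : ℕ) : ℕ := 512 * Lam

/-- Slope of a compressed truncation. -/
noncomputable def levSlope (Lam : ℕ) : ℝ := 4 * (4 * (radiiCount Lam : ℝ) + 2)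

/-- Slope of the level part with `k` radii. -/
noncomputable def levLip (Lam k : ℕ) : ℝ :=
  14 + 10 * levSlope Lam * slope0 Lam + 2 * (k : ℝ) + 540 * levSlope Lam * Lam

/-- Level selection window: one on `[1, 2^L]`, zero outside `(1/2, 2 * 2^L)`. -/
noncomputable def levelBumpW (L : ℕ) (t : ℝ) : ℝ :=
  min 1 (max 0 (min (2 * t - 1) (2 - t / 2 ^ L)))

lemma levelBumpW_nonneg (L : ℕ) (t : ℝ) : 0 ≤ levelBumpW L t :=
  le_min zero_le_one (le_max_left _ _)

lemma levelBumpW_le_one (L : ℕ) (t : ℝ) : levelBumpW L t ≤ 1 := min_le_left _ _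

lemma levelBumpW_eq_one {L : ℕ} {t : ℝ} (h1 : 1 ≤ t) (h2 : t ≤ 2 ^ L) : levelBumpW L t = 1 := by
  refine min_eq_left (le_max_of_le_right (le_min (by linarith) ?_))
  rw [le_sub_comm, div_le_iff₀ (by positivity)]
  linarith

lemma of_levelBumpW_pos {L : ℕ} {t : ℝ} (h : 0 < levelBumpW L t) : 1 < 2 * t ∧ t < 2 * 2 ^ L := by
  have h' := (lt_max_iff.1 (lt_min_iff.1 h).2).resolve_left (lt_irrefl _)
  obtain ⟨ha, hc⟩ := lt_min_iff.1 h'
  rw [lt_sub_iff_add_lt, zero_add, div_lt_iff₀ (by positivity)] at hc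
  exact ⟨by linarith, hc⟩

lemma levelBumpW_lip (L : ℕ) (t t' : ℝ) : |levelBumpW L t - levelBumpW L t'| ≤ 2 * |t - t'| := by
  unfold levelBumpW
  refine (abs_min_sub_min_le_max _ _ _ _).trans (max_le (by simp) ?_)
  refine (abs_max_sub_max_le_max _ _ _ _).trans (max_le (by simp) ?_)
  refine (abs_min_sub_min_le_max _ _ _ _).trans (max_le (le_of_eq ?_) ?_)
  · rw [show 2 * t - 1 - (2 * t' - 1) = 2 * (t - t') by ring, abs_mul]; norm_num
  · rw [show 2 - t / 2 ^ L - (2 - t' / 2 ^ L) = -((1 / 2 ^ L) * (t - t')) by ring, abs_neg,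
      abs_mul, abs_of_pos (by positivity)]
    refine mul_le_mul_of_nonneg_right ?_ (abs_nonneg _)
    rw [div_le_iff₀ (by positivity)]
    linarith [one_le_pow₀ (one_le_two (α := ℝ)) (n := L)]

variable {p : ℝ} [hp : Fact (1 ≤ ENNReal.ofReal p)]

/-- One compressed and smoothed truncation at scale `R`. -/
lemma exists_level {V I : Type*} [Fintype V] [MetricSpace V] [Fintype I] (x : V → Ell p I)
    (hx : ∀ v w, dist v w = ‖x v - x w‖) {L Lam T0 : ℕ} (hL : 1 ≤ L) (hTn : 1 ≤ T0)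
    (hlogn : Real.log (Fintype.card V) ≤ (Lam : ℝ) * L) {R : ℝ} (hR : 0 < R)
    (σ : V ≃ Fin (Fintype.card V)) (j : Fin T0) :
    ∃ Φ : V → Ell p (Fin ⌊radialDim p (2 * L) (Fintype.card V)⌋₊),
      (∀ v, ‖Φ v‖ ≤ 16 * R) ∧
      (∀ v w, ‖Φ v - Φ w‖ ≤ (4 * (4 * (T0 : ℝ) + 2)) * slope0 Lam * dist v w) ∧
      (∀ v w, 4 * dist v w ≤ R / 2 ^ (9 * L) → ‖Φ v - Φ w‖ ≤ 180 * (4 * (4 * (T0 : ℝ) + 2)) *
        ((logBall v (4 * (2 ^ L * (R / 2 ^ (9 * L)))) - logBall v (R / 2 ^ (9 * L) / 2)) / L) *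
          dist v w) ∧
      ∀ v w, Padded σ (R * (1 + (j : ℕ) / (T0 : ℝ))) (R / T0) v →
        dist v w ≤ R / T0 →
        dist v w / 32 - 2 * R / 2 ^ (14 * L) - 4 * (4 * (4 * (T0 : ℝ) + 2)) * (R / 2 ^ (8 * L)) ≤
          ‖Φ v - Φ w‖ := by
  classical
  have hT : (0 : ℝ) < T0 := Nat.cast_pos.2 hTn
  set τ := R / (T0 : ℝ) with hτ
  have hτ0 : 0 < τ := div_pos hR hT
  set ρ := R * (1 + (j : ℕ) / (T0 : ℝ)) with hρ
  have hρ0 : 0 ≤ ρ := by rw [hρ]; positivity
  have hρ2 : ρ ≤ 2 * R := by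
    rw [hρ, mul_comm 2 R]
    refine mul_le_mul_of_nonneg_left ?_ hR.le
    have : ((j : ℕ) : ℝ) / T0 ≤ 1 := (div_le_one hT).2 (by exact_mod_cast j.isLt.le)
    linarith
  set c := centre σ ρ with hc
  set cw := cellWeight σ ρ τ with hcw
  let u : V → Ell p I := fun v => cw v • (x v - x (c v))
  have hxc : ∀ v, ‖x v - x (c v)‖ ≤ 2 * R := fun v => by
    rw [← hx]; exact (centre_spec σ hρ0 v).1.trans hρ2
  have hu : ∀ v, ‖u v‖ ≤ 2 * R := fun v => by
    simp only [u]
    rw [norm_smul, Real.norm_of_nonneg (cellWeight_nonneg σ hτ0 v)]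
    exact (mul_le_of_le_one_left (norm_nonneg _) (cellWeight_le_one σ ρ τ v)).trans (hxc v)
  have huL : ∀ v w, ‖u v - u w‖ ≤ (4 * (T0 : ℝ) + 2) * dist v w := by
    intro v w
    have hD : 0 ≤ dist v w := dist_nonneg
    have hRτ : ∀ D : ℝ, D / τ * (2 * R) = 2 * T0 * D := fun D => by
      rw [hτ]; field_simp
    rcases eq_or_ne (c v) (c w) with h | h
    · simp only [u]
      rw [show cw v • (x v - x (c v)) - cw w • (x w - x (c w)) =
        (cw v - cw w) • (x v - x (c v)) + cw w • (x v - x w) by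
          rw [← h, sub_smul, smul_sub, smul_sub, smul_sub, smul_sub]; abel]
      refine (norm_add_le _ _).trans ?_
      rw [norm_smul, norm_smul, Real.norm_eq_abs,
        Real.norm_of_nonneg (cellWeight_nonneg σ hτ0 w), ← hx v w]
      have h1 : |cw v - cw w| ≤ dist v w / τ := by
        rw [abs_le]
        have := cellWeight_lip σ hτ0 h.symm
        rw [dist_comm] at this
        constructor <;> linarith [cellWeight_lip σ hτ0 h]
      have h2 := mul_le_mul h1 (hxc v) (norm_nonneg _) (div_nonneg hD hτ0.le)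
      have h3 := mul_le_of_le_one_left hD (cellWeight_le_one σ ρ τ w)
      rw [hRτ] at h2
      linarith [mul_nonneg hT.le hD]
    · refine (norm_sub_le _ _).trans ?_
      simp only [u]
      rw [norm_smul, norm_smul, Real.norm_of_nonneg (cellWeight_nonneg σ hτ0 v),
        Real.norm_of_nonneg (cellWeight_nonneg σ hτ0 w)]
      have h1 : cw v ≤ dist v w / τ := cellWeight_le σ hτ0 (Ne.symm h)
      have h2 : cw w ≤ dist v w / τ := by rw [dist_comm]; exact cellWeight_le σ hτ0 h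
      have h3 := mul_le_mul h1 (hxc v) (norm_nonneg _) (div_nonneg hD hτ0.le)
      have h4 := mul_le_mul h2 (hxc w) (norm_nonneg _) (div_nonneg hD hτ0.le)
      rw [hRτ] at h3 h4
      linarith
  set W := 2 * R with hW
  have hW0 : 0 < W := by positivity
  set θ : ℝ := 1 / 2 ^ (7 * (2 * L)) with hθ
  have hθ0 : 0 < θ := by positivity
  have hθ1 : θ ≤ 1 := by
    rw [hθ, div_le_one (by positivity)]; exact one_le_pow₀ one_le_two
  have hθW : θ * W = 2 * R / 2 ^ (14 * L) := by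
    rw [hθ, hW, show 7 * (2 * L) = 14 * L by ring]; ring
  obtain ⟨d', ψ0, hd', hψ0n, hψ0⟩ := exists_lift (fun v => W⁻¹ • u v) (fun v => by
    rw [norm_smul, norm_inv, Real.norm_of_nonneg hW0.le, inv_mul_le_iff₀ hW0]
    linarith [hu v]) hθ0 hθ1
  have hdd : d' ≤ ⌊radialDim p (2 * L) (Fintype.card V)⌋₊ := Nat.le_floor (hd'.trans (le_of_eq (by
    rw [radialDim, hθ, one_div_one_div])))
  let ψ : V → Ell p (Fin ⌊radialDim p (2 * L) (Fintype.card V)⌋₊) :=
    fun v => pad (Fin.castLEEmb hdd) (W • ψ0 v)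
  have hψn : ∀ v, ‖ψ v‖ ≤ 16 * R := fun v => by
    simp only [ψ]
    rw [norm_pad, norm_smul, Real.norm_of_nonneg hW0.le]
    have := mul_le_mul_of_nonneg_left (hψ0n v) hW0.le
    linarith
  have hψeq : ∀ v w, ‖ψ v - ψ w‖ = W * ‖ψ0 v - ψ0 w‖ := fun v w => by
    simp only [ψ]
    rw [pad_sub, norm_pad, ← smul_sub, norm_smul, Real.norm_of_nonneg hW0.le]
  set K := 4 * (4 * (T0 : ℝ) + 2) with hK4
  have hK0 : 8 ≤ K := by rw [hK4]; linarith
  set T := R / (2 : ℝ) ^ (9 * L) with hTdef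
  have hTpos : 0 < T := div_pos hR (by positivity)
  have hsmall : 2 * R / 2 ^ (14 * L) ≤ T := by
    rw [hTdef, div_le_div_iff₀ (by positivity) (by positivity),
      show 14 * L = 9 * L + 5 * L by ring, pow_add]
    have h : (2 : ℝ) ≤ 2 ^ (5 * L) := le_self_pow₀ one_le_two (by omega)
    have := mul_le_mul_of_nonneg_left h (show (0 : ℝ) ≤ R * 2 ^ (9 * L) by positivity)
    linarith
  have hψmod : ∀ v w, ‖ψ v - ψ w‖ ≤ K * (dist v w + T) := fun v w => by
    rw [hψeq]
    have h := (hψ0 v w).1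
    rw [← smul_sub, norm_smul, norm_inv, Real.norm_of_nonneg hW0.le] at h
    calc W * ‖ψ0 v - ψ0 w‖ ≤ W * (4 * (W⁻¹ * ‖u v - u w‖ + θ)) :=
          mul_le_mul_of_nonneg_left h hW0.le
      _ = 4 * (‖u v - u w‖ + θ * W) := by field_simp
      _ ≤ _ := by
          rw [hθW]
          have h1 := huL v w
          have h2 := mul_le_mul_of_nonneg_right (show (4 : ℝ) ≤ K by linarith) hTpos.le
          rw [hK4] at h2 ⊢
          linarith
  obtain ⟨Φ, h1, h2, h3⟩ := exists_window hTpos hL ψ (by linarith : (0 : ℝ) ≤ K) hψmod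
  refine ⟨Φ, fun v => ?_, fun v w => (h1 v w).trans ?_, h2, fun v w hpad hD => ?_⟩
  · have := h3 v 0 (16 * R) (by positivity) fun s _ => by rw [sub_zero]; exact hψn s
    rwa [sub_zero] at this
  · refine mul_le_mul_of_nonneg_right (mul_le_mul_of_nonneg_left ?_ (by linarith)) dist_nonneg
    rw [slope0, mul_div_assoc]
    have : Real.log (Fintype.card V) / L ≤ Lam := by
      rw [div_le_iff₀ (Nat.cast_pos.2 hL)]; exact hlogn
    linarith
  · have hv : ∀ y, dist v y ≤ 2 * τ → c y = c v := hpad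
    have hcv : c w = c v := hv w (by linarith)
    have e1 : cw v = 1 := cellWeight_eq_one σ hτ0 fun y hy => hv y (by linarith)
    have e2 : cw w = 1 := cellWeight_eq_one σ hτ0 fun y hy => by
      change c y = c w
      rw [hcv]
      exact hv y (by linarith [dist_triangle v w y])
    have hΔ : ‖u v - u w‖ = dist v w := by
      simp only [u]
      rw [e1, e2, one_smul, one_smul, hcv, sub_sub_sub_cancel_right, hx]
    have hlo : dist v w / 32 - 2 * R / 2 ^ (14 * L) ≤ ‖ψ v - ψ w‖ := by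
      rw [hψeq, ← hθW]
      have h := (hψ0 v w).2
      rw [← smul_sub, norm_smul, norm_inv, Real.norm_of_nonneg hW0.le, hΔ] at h
      refine le_trans (le_of_eq ?_) (mul_le_mul_of_nonneg_left h hW0.le)
      field_simp
    have hnear : ∀ v, ‖Φ v - ψ v‖ ≤ 2 * K * (R / 2 ^ (8 * L)) := fun v => by
      refine h3 v (ψ v) _ (by positivity) fun s hs => ?_
      refine (hψmod s v).trans ?_
      have e : (2 : ℝ) ^ L * T = R / 2 ^ (8 * L) := by
        rw [hTdef, show 9 * L = L + 8 * L by ring, pow_add]; field_simp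
      have h4 : T ≤ (2 : ℝ) ^ L * T := le_mul_of_one_le_left hTpos.le (one_le_pow₀ one_le_two)
      rw [dist_comm]
      have := mul_le_mul_of_nonneg_left (add_le_add hs h4) (show (0 : ℝ) ≤ K by linarith)
      rw [e] at this
      linarith
    have h5 := norm_sub_le_norm_sub_add_norm_sub (ψ v) (Φ v) (ψ w)
    have h6 := norm_sub_le_norm_sub_add_norm_sub (Φ v) (Φ w) (ψ w)
    have h7 := hnear v
    rw [norm_sub_rev] at h7
    linarith [hnear w]

end Vale.Agent.P249.Sqrt
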