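import Vale.Agent.P249.Sqrt.Residue
import Vale.Agent.P249.Sqrt.Copies

/-!
The level part: truncations by random partitions at the levels just below prescribed radii,
compressed, smoothed and superposed with random signs.
-/

namespace Vale.Agent.P249.Sqrt

open Finset Vale.Agent.P249.Sub Vale.Agent.P249.Pow

variable {p : ℝ} [hp : Fact (1 ≤ ENNReal.ofReal p)]

/-- A padded level detects the distance. -/
lemma detect_level {V : Type*} [Fintype V] [MetricSpace V] {L k d : ℕ} {K : ℝ} (hL : 4 ≤ L)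
    (hbig : 2048 * K ≤ (2 : ℝ) ^ L) (hK : 0 ≤ K) {r : Fin (k + 1) → V → ℝ}
    (hrL : ∀ i v w, |r i v - r i w| ≤ dist v w) {a : ℤ} {v w : V} {i : Fin (k + 1)}
    (hlow : 2 ^ (13 * L) * (2 : ℝ) ^ a ≤ r i v) (hhigh : r i v ≤ 2 ^ (14 * L) * (2 : ℝ) ^ a)
    (hi2 : r i v ≤ 2 ^ (20 * L) * dist v w) (Φ : V → Ell p (Fin d))
    (hΦn : ∀ u, ‖Φ u‖ ≤ 16 * (2 : ℝ) ^ a)
    (hlo : dist v w / 32 - 2 * (2 : ℝ) ^ a / 2 ^ (14 * L) -
      4 * K * ((2 : ℝ) ^ a / 2 ^ (8 * L)) ≤ ‖Φ v - Φ w‖) :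
    dist v w / 128 ≤ ‖act L r a v • Φ v - act L r a w • Φ w‖ := by
  set D := dist v w with hD
  have hD0 : 0 ≤ D := dist_nonneg
  have hRp : (0 : ℝ) < (2 : ℝ) ^ a := zpow_pos two_pos _
  have hRD : (2 : ℝ) ^ a ≤ 2 ^ (7 * L) * D := by
    refine le_of_mul_le_mul_left ?_ (show (0 : ℝ) < 2 ^ (13 * L) by positivity)
    rw [← mul_assoc, ← pow_add, show 13 * L + 7 * L = 20 * L by ring]
    exact hlow.trans hi2
  have hs1 : 2 * (2 : ℝ) ^ a / 2 ^ (14 * L) ≤ D / 1024 := by
    rw [div_le_div_iff₀ (by positivity) (by norm_num), show 14 * L = 7 * L + 7 * L by ring,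
      pow_add]
    have h2048 : (2048 : ℝ) ≤ 2 ^ (7 * L) := by
      calc (2048 : ℝ) = 2 ^ 11 := by norm_num
        _ ≤ _ := pow_le_pow_right₀ one_le_two (by omega)
    have h9 := mul_le_mul_of_nonneg_left h2048 (show (0 : ℝ) ≤ 2 ^ (7 * L) * D by positivity)
    linarith
  have hs2 : 4 * K * ((2 : ℝ) ^ a / 2 ^ (8 * L)) ≤ D / 512 := by
    rw [mul_div_assoc', div_le_div_iff₀ (by positivity) (by norm_num),
      show 8 * L = 7 * L + L by ring, pow_add]
    have h9 := mul_le_mul_of_nonneg_left hbig (show (0 : ℝ) ≤ 2 ^ (7 * L) * D by positivity)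
    have h10 := mul_le_mul_of_nonneg_left hRD (show (0 : ℝ) ≤ 2048 * K by positivity)
    linarith
  have h3 : ‖(act L r a v - act L r a w) • Φ w‖ ≤ D / 256 := by
    rw [norm_smul, Real.norm_eq_abs]
    refine (mul_le_mul_of_nonneg_left (hΦn w) (abs_nonneg _)).trans
      ((act_lip (show 1 ≤ L by omega) hrL a v w).trans ?_)
    rw [← hD, div_eq_mul_one_div D 256]
    refine mul_le_mul_of_nonneg_left ?_ hD0
    rw [div_le_div_iff₀ (by positivity) (by norm_num)]
    calc (32 : ℝ) * 256 = 2 ^ 13 := by norm_num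
      _ ≤ 2 ^ (13 * L) := pow_le_pow_right₀ one_le_two (by omega)
      _ = _ := (one_mul _).symm
  have hsplit : act L r a v • Φ v - act L r a w • Φ w =
      (Φ v - Φ w) + (act L r a v - act L r a w) • Φ w := by
    rw [act_eq_one hlow hhigh, one_smul, sub_smul, one_smul]; abel
  rw [hsplit]
  have h4 := norm_le_add_norm_add (Φ v - Φ w) ((act L r a v - act L r a w) • Φ w)
  linarith

set_option maxHeartbeats 1000000 in
/-- The level part of the embedding. -/
theorem exists_levels {V I : Type*} [Fintype V] [MetricSpace V] [Fintype I] (x : V → Ell p I)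
    (hx : ∀ v w, dist v w = ‖x v - x w‖) {L Lam k : ℕ} (hL : 4 ≤ L) (hLam : 1 ≤ Lam)
    (hn : Fintype.card V ≤ 2 ^ (Lam * L)) (hbig : 2048 * levSlope Lam ≤ (2 : ℝ) ^ L)
    (r : Fin (k + 1) → V → ℝ) (hr : ∀ i v, 0 < r i v)
    (hrL : ∀ i v w, |r i v - r i w| ≤ dist v w) :
    ∃ (d : ℕ) (G : V → Ell p (Fin d)),
      d ≤ 64 * (2 * Nat.log 2 (Fintype.card V) + 2) *
        ⌊radialDim p (2 * L) (Fintype.card V)⌋₊ ∧
      (∀ v w, ‖G v - G w‖ ≤ levLip Lam (k + 1) * dist v w) ∧
      ∀ v w i, 2 ^ (15 * L) * dist v w ≤ r i v → r i v ≤ 2 ^ (20 * L) * dist v w →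
        dist v w ≤ 8192 * ‖G v - G w‖ := by
  classical
  have hp1 : 1 ≤ p := one_le_p
  have hp0 : 0 < p := by linarith
  set n := Fintype.card V with hn'
  have hLp : (0 : ℝ) < L := Nat.cast_pos.2 (by omega)
  have hlogn : Real.log n ≤ (Lam : ℝ) * L := by
    rcases Nat.eq_zero_or_pos n with h0 | h0
    · simp [h0]; positivity
    have h1 : (n : ℝ) ≤ (2 : ℝ) ^ (Lam * L) := by exact_mod_cast hn
    refine (Real.log_le_log (Nat.cast_pos.2 h0) h1).trans ?_
    rw [Real.log_pow]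
    push_cast
    exact mul_le_of_le_one_right (by positivity) (by linarith [Real.log_two_lt_d9])
  set T0 := radiiCount Lam with hT0
  have hT0eq : T0 = 512 * Lam := rfl
  have hT0pos : 0 < T0 := by omega
  set K := levSlope Lam with hK
  have hK4 : K = 4 * (4 * (T0 : ℝ) + 2) := rfl
  have hK0 : 8 ≤ K := by
    rw [hK4]; linarith [(Nat.cast_nonneg T0 : (0 : ℝ) ≤ T0)]
  set C0 := slope0 Lam with hC0
  have hC01 : 24 ≤ C0 := by
    rw [hC0, slope0]; linarith [(Nat.cast_nonneg Lam : (0 : ℝ) ≤ Lam)]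
  set per := L + 4 with hper
  have hperpos : 0 < per := by omega
  let R : ℤ → ℝ := fun a => (2 : ℝ) ^ a
  have hR : ∀ a, 0 < R a := fun a => zpow_pos two_pos a
  let lr : Fin (k + 1) → V → ℤ := fun i v => Int.log 2 (r i v)
  have hlr : ∀ i v, (2 : ℝ) ^ lr i v ≤ r i v ∧ r i v < (2 : ℝ) ^ (lr i v + 1) := fun i v => by
    constructor
    · exact_mod_cast Int.zpow_log_le_self one_lt_two (hr i v)
    · exact_mod_cast Int.lt_zpow_succ_log_self one_lt_two (r i v)
  set A0 : Finset ℤ := univ.biUnion fun iv : Fin (k + 1) × V =>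
    Finset.Icc (lr iv.1 iv.2 - 14 * L - 1) (lr iv.1 iv.2 - 13 * L + 1) with hA0
  let res : ℤ → Fin per := resOf per hperpos
  have hres' : ∀ a b, res a = res b → |a - b| < (per : ℤ) → a = b := fun a b => resOf_inj hperpos
  choose Φ hΦn hΦlip hΦgrowth hΦlow using fun (a : ℤ) (ω : (V ≃ Fin n) × Fin T0) =>
    exists_level x hx (show 1 ≤ L by omega) (show 1 ≤ T0 by omega) hlogn (hR a) ω.1 ω.2
  let term : ℤ → (V ≃ Fin n) × Fin T0 → V → Ell p (Fin ⌊radialDim p (2 * L) n⌋₊) :=
    fun a ω v => act L r a v • Φ a ω v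
  have hupper : ∀ v w ω (t : Fin per), v ≠ w →
      ∑ a ∈ A0.filter (fun a => res a = t), ‖term a ω v - term a ω w‖ ≤
        levLip Lam (k + 1) * dist v w := by
    intro v w ω t hvw
    refine (sum_levels_le (K := K) hL hlogn (by linarith) hr hrL (fun a => Φ a ω)
      (fun a => hΦn a ω) (fun a => hΦlip a ω) (fun a => hΦgrowth a ω) A0 hper hperpos t
      hvw).trans (le_of_eq ?_)
    rw [levLip, ← hK]
    push_cast
    ring
  -- random superposition
  let Ω := Fin per × ((V ≃ Fin n) × Fin T0) × ({a // a ∈ A0} → Bool)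
  let fam : Fin per → (V ≃ Fin n) × Fin T0 → V → {a // a ∈ A0} → Ell p (Fin ⌊radialDim p (2 * L) n⌋₊) :=
    fun t ω v a => if res a.1 = t then term a.1 ω v else 0
  let comp : Ω → V → Ell p (Fin ⌊radialDim p (2 * L) n⌋₊) := fun ω v => signSum (fam ω.1 ω.2.1 v) ω.2.2
  have hcomp : ∀ (ω : Ω) v w, comp ω v - comp ω w =
      signSum (fun a => fam ω.1 ω.2.1 v a - fam ω.1 ω.2.1 w a) ω.2.2 := fun ω v w => by
    simp only [comp, signSum]
    rw [← Finset.sum_sub_distrib]
    refine Finset.sum_congr rfl fun a _ => ?_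
    cases ω.2.2 a <;> simp; abel
  let target : V × V → Prop := fun q => ∃ i, 2 ^ (15 * L) * dist q.1 q.2 ≤ r i q.1 ∧
    r i q.1 ≤ 2 ^ (20 * L) * dist q.1 q.2
  let good : V × V → Ω → Prop := fun q ω =>
    target q → dist q.1 q.2 / 128 ≤ ‖comp ω q.1 - comp ω q.2‖
  have hgood : ∀ q, Fintype.card Ω ≤ 8 * (univ.filter (good q)).card := by
    intro q
    by_cases htgt : target q
    swap
    · rw [Finset.filter_true_of_mem fun ω _ h => absurd h htgt, Finset.card_univ]
      omega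
    obtain ⟨v, w⟩ := q
    obtain ⟨i, hi1, hi2⟩ := htgt
    set D := dist v w with hD
    have hD0 : 0 ≤ D := dist_nonneg
    set b := lr i v + 1 - 14 * L with hb
    set GA := (Finset.Icc b (b + L - 1)).filter fun a =>
      logBall v (4 * (2 : ℝ) ^ a) - logBall v ((2 : ℝ) ^ a / 4) ≤ 16 * Lam with hGA
    have hGAcard : 3 * L ≤ 4 * GA.card := exists_count_good v hlogn hLam b
    set Pad : ℤ → Finset ((V ≃ Fin n) × Fin T0) := fun a => univ.filter fun ω =>
      Padded ω.1 (R a * (1 + (ω.2 : ℕ) / (T0 : ℝ))) (R a / T0) v with hPad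
    have hPadcard : ∀ a ∈ GA, 7 * (Fintype.card (V ≃ Fin n) * T0) ≤ 8 * (Pad a).card := by
      intro a ha
      have h := card_padded (hR a).le (T0 := T0) (by omega) v (Finset.mem_filter.1 ha).2
      have e : (T0 : ℝ) - 4 * (16 * Lam) = 7 / 8 * T0 := by
        rw [hT0eq]; push_cast; ring
      rw [e] at h
      have h' : ((7 * (Fintype.card (V ≃ Fin n) * T0) : ℕ) : ℝ) ≤ ((8 * (Pad a).card : ℕ) : ℝ) := by
        push_cast
        simp only [hPad]
        linarith
      exact_mod_cast h'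
    have hdetect : ∀ a ∈ GA, ∀ ω ∈ Pad a, a ∈ A0 ∧
        D / 128 ≤ ‖term a ω v - term a ω w‖ := by
      intro a ha ω hω
      obtain ⟨ha1, ha2⟩ := Finset.mem_Icc.1 (Finset.mem_filter.1 ha).1
      refine ⟨Finset.mem_biUnion.2 ⟨(i, v), Finset.mem_univ _,
        Finset.mem_Icc.2 ⟨(show lr i v - 14 * L - 1 ≤ a by omega),
          (show a ≤ lr i v - 13 * L + 1 by omega)⟩⟩, ?_⟩
      obtain ⟨hl1, hl2⟩ := hlr i v
      have hlow : 2 ^ (13 * L) * R a ≤ r i v := by
        refine le_trans ?_ hl1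
        rw [← zpow_add_nat]
        exact zpow_le_zpow_right₀ one_le_two (by push_cast; omega)
      have hhigh : r i v ≤ 2 ^ (14 * L) * R a := by
        refine hl2.le.trans ?_
        rw [← zpow_add_nat]
        exact zpow_le_zpow_right₀ one_le_two (by push_cast; omega)
      have hDR : 2 ^ L * D ≤ R a := by
        refine le_of_mul_le_mul_left ?_ (show (0 : ℝ) < 2 ^ (14 * L) by positivity)
        rw [← mul_assoc, ← pow_add, show 14 * L + L = 15 * L by ring]
        exact hi1.trans hhigh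
      have hT0L : (T0 : ℝ) ≤ 2 ^ L := by
        rw [hK4] at hbig
        linarith [(Nat.cast_nonneg T0 : (0 : ℝ) ≤ T0)]
      have hDτ : D ≤ R a / T0 := by
        rw [le_div_iff₀ (Nat.cast_pos.2 hT0pos), mul_comm]
        exact (mul_le_mul_of_nonneg_right hT0L hD0).trans hDR
      exact detect_level hL hbig (by linarith) hrL hlow hhigh hi2 (Φ a ω) (hΦn a ω)
        (hΦlow a ω v w (Finset.mem_filter.1 hω).2 hDτ)
    have hsigns : ∀ a ∈ GA, ∀ ω ∈ Pad a, Fintype.card ({a // a ∈ A0} → Bool) ≤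
        2 * (univ.filter fun s => good (v, w) (res a, ω, s)).card := by
      intro a ha ω hω
      obtain ⟨haA, hdet⟩ := hdetect a ha ω hω
      refine (half_good (fun c => fam (res a) ω v c - fam (res a) ω w c) ⟨a, haA⟩).trans
        (Nat.mul_le_mul_left 2 (Finset.card_le_card fun s hs => ?_))
      refine Finset.mem_filter.2 ⟨Finset.mem_univ s, fun _ => ?_⟩
      rw [hcomp]
      refine le_trans ?_ (Finset.mem_filter.1 hs).2
      simp only [fam, if_pos]
      exact hdet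
    set S := Fintype.card ({a // a ∈ A0} → Bool) with hSdef
    set E := Fintype.card (V ≃ Fin n) * T0 with hE
    have hΩ : Fintype.card Ω = per * (E * S) := by
      simp only [Ω, Fintype.card_prod, Fintype.card_fin, hE, hSdef]
    have hbig' : ∑ a ∈ GA, ∑ ω ∈ Pad a, (univ.filter fun s => good (v, w) (res a, ω, s)).card ≤
        (univ.filter (good (v, w))).card := by
      rw [Finset.card_filter (fun ω => good (v, w) ω), Fintype.sum_prod_type]
      refine le_trans ?_ (Finset.sum_le_sum_of_subset_of_nonneg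
        (s := GA.image res) (Finset.subset_univ _) fun _ _ _ => Nat.zero_le _)
      rw [Finset.sum_image (fun a ha b hb h => hres' a b h (by
        have h1 := Finset.mem_Icc.1 (Finset.mem_filter.1 ha).1
        have h2 := Finset.mem_Icc.1 (Finset.mem_filter.1 hb).1
        rw [abs_lt]; omega))]
      refine Finset.sum_le_sum fun a _ => ?_
      rw [Fintype.sum_prod_type]
      refine le_trans (Finset.sum_le_sum fun ω _ => le_of_eq (Finset.card_filter _ _)) ?_
      exact Finset.sum_le_sum_of_subset_of_nonneg (Finset.subset_univ _)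
        fun _ _ _ => Nat.zero_le _
    have h1 : GA.card * (7 * E * S) ≤
        16 * ∑ a ∈ GA, ∑ ω ∈ Pad a, (univ.filter fun s => good (v, w) (res a, ω, s)).card := by
      rw [Finset.mul_sum, ← smul_eq_mul]
      refine Finset.card_nsmul_le_sum _ _ _ fun a ha => ?_
      have h2 : (Pad a).card * S ≤
          2 * ∑ ω ∈ Pad a, (univ.filter fun s => good (v, w) (res a, ω, s)).card := by
        rw [Finset.mul_sum, ← smul_eq_mul]
        exact Finset.card_nsmul_le_sum _ _ _ fun ω hω => hsigns a ha ω hω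
      have h3 := Nat.mul_le_mul_right S (hPadcard a ha)
      rw [Nat.mul_assoc 8] at h3
      calc 7 * E * S ≤ 8 * ((Pad a).card * S) := h3
        _ ≤ _ := by linarith
    rw [hΩ]
    have hper6 : per * (E * S) ≤ GA.card * (7 * E * S) / 2 := by
      rw [Nat.le_div_iff_mul_le two_pos]
      calc per * (E * S) * 2 = (2 * per) * (E * S) := by ring
        _ ≤ (7 * GA.card) * (E * S) := Nat.mul_le_mul_right _ (by omega)
        _ = _ := by ring
    omega
  set l := 2 * Nat.log 2 n + 1 with hl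
  have : Nonempty Ω := ⟨(⟨0, hperpos⟩, (Fintype.equivFin V, ⟨0, hT0pos⟩), fun _ => true)⟩
  obtain ⟨ξ, hξ⟩ := exists_copies good hgood (l := l) (by
    have h1 : n < 2 ^ (Nat.log 2 n + 1) := Nat.lt_pow_succ_log_self one_lt_two n
    rw [Fintype.card_prod, ← hn']
    calc n * n < 2 ^ (Nat.log 2 n + 1) * 2 ^ (Nat.log 2 n + 1) := Nat.mul_lt_mul'' h1 h1
      _ ≤ 4 ^ (l + 1) := by
          rw [← pow_add, show (4 : ℕ) = 2 ^ 2 by rfl, ← pow_mul]
          exact Nat.pow_le_pow_right two_pos (by omega))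
  have hKc0 : (0 : ℝ) < ((64 * (l + 1) : ℕ) : ℝ) := by positivity
  set c : ℝ := (((64 * (l + 1) : ℕ) : ℝ)⁻¹) ^ p⁻¹ with hc
  have hc0 : 0 ≤ c := Real.rpow_nonneg (inv_nonneg.2 hKc0.le) _
  have hcp : c ^ p = ((64 * (l + 1) : ℕ) : ℝ)⁻¹ :=
    Real.rpow_inv_rpow (inv_nonneg.2 hKc0.le) hp0.ne'
  let G0 : V → Ell p (Fin (64 * (l + 1)) × Fin ⌊radialDim p (2 * L) n⌋₊) :=
    fun v => WithLp.toLp _ fun ki => c * comp (ξ ki.1) v ki.2
  have hG0 : ∀ v w, ‖G0 v - G0 w‖ ^ p =
      ((64 * (l + 1) : ℕ) : ℝ)⁻¹ * ∑ j, ‖comp (ξ j) v - comp (ξ j) w‖ ^ p := by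
    intro v w
    rw [norm_rpow_eq, Fintype.sum_prod_type, Finset.mul_sum]
    refine Finset.sum_congr rfl fun j _ => ?_
    rw [norm_rpow_eq, Finset.mul_sum]
    refine Finset.sum_congr rfl fun i _ => ?_
    simp only [G0, PiLp.sub_apply]
    rw [← mul_sub, abs_mul, abs_of_nonneg hc0, Real.mul_rpow hc0 (abs_nonneg _), hcp]
  have hBpos : 0 ≤ levLip Lam (k + 1) := by rw [levLip, ← hK, ← hC0]; positivity
  refine ⟨64 * (l + 1) * ⌊radialDim p (2 * L) n⌋₊, fun v => pad finProdFinEquiv.toEmbedding (G0 v), ?_, fun v w => ?_,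
    fun v w i hi1 hi2 => ?_⟩
  · rw [hl]
  · rw [pad_sub, norm_pad]
    rcases eq_or_ne v w with rfl | hvw
    · simp
    refine (Real.rpow_le_rpow_iff (norm_nonneg _) (mul_nonneg hBpos dist_nonneg) hp0).1 ?_
    rw [hG0]
    calc ((64 * (l + 1) : ℕ) : ℝ)⁻¹ * ∑ j, ‖comp (ξ j) v - comp (ξ j) w‖ ^ p
        ≤ ((64 * (l + 1) : ℕ) : ℝ)⁻¹ *
            ∑ _j : Fin (64 * (l + 1)), (levLip Lam (k + 1) * dist v w) ^ p := by
          gcongr with j
          rw [hcomp]
          refine le_trans ((norm_sum_le _ _).trans (Finset.sum_le_sum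
            (g := fun a : {a // a ∈ A0} => if res a.1 = (ξ j).1 then
              ‖term a.1 (ξ j).2.1 v - term a.1 (ξ j).2.1 w‖ else 0) fun a _ => le_of_eq ?_))
            (le_trans (le_of_eq ?_) (hupper v w (ξ j).2.1 (ξ j).1 hvw))
          · cases (ξ j).2.2 a <;> simp only [fam, cond_true, cond_false, norm_neg] <;> split <;>
              simp
          · rw [Finset.sum_filter]
            exact Finset.sum_coe_sort A0 (fun a => if res a = (ξ j).1 then
              ‖term a (ξ j).2.1 v - term a (ξ j).2.1 w‖ else 0)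
      _ = _ := by simp; field_simp
  · set D := dist v w with hD
    have hD0 : 0 ≤ D := dist_nonneg
    rw [pad_sub, norm_pad]
    have key : D / 8192 ≤ ‖G0 v - G0 w‖ := by
      refine (Real.rpow_le_rpow_iff (by positivity) (norm_nonneg _) hp0).1 ?_
      rw [hG0]
      set Sg := univ.filter fun j => good (v, w) (ξ j) with hSg
      have hcard : ((64 * (l + 1) : ℕ) : ℝ) / 64 ≤ (Sg.card : ℝ) := by
        have h2 : ((l + 1 : ℕ) : ℝ) ≤ (Sg.card : ℝ) := by exact_mod_cast hξ (v, w)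
        push_cast at h2 ⊢
        linarith
      calc (D / 8192) ^ p = (D / 128) ^ p / (64 : ℝ) ^ p := by
            rw [← Real.div_rpow (by positivity) (by norm_num)]; ring_nf
        _ ≤ (D / 128) ^ p / 64 :=
            div_le_div_of_nonneg_left (by positivity) (by norm_num)
              (Real.self_le_rpow_of_one_le (by norm_num) hp1)
        _ = ((64 * (l + 1) : ℕ) : ℝ)⁻¹ *
              (((64 * (l + 1) : ℕ) : ℝ) / 64 * (D / 128) ^ p) := by field_simp
        _ ≤ ((64 * (l + 1) : ℕ) : ℝ)⁻¹ * ((Sg.card : ℝ) * (D / 128) ^ p) := by gcongr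
        _ = ((64 * (l + 1) : ℕ) : ℝ)⁻¹ * ∑ _j ∈ Sg, (D / 128) ^ p := by simp
        _ ≤ ((64 * (l + 1) : ℕ) : ℝ)⁻¹ * ∑ j ∈ Sg, ‖comp (ξ j) v - comp (ξ j) w‖ ^ p := by
            gcongr with j hj
            exact (Finset.mem_filter.1 hj).2 ⟨i, hi1, hi2⟩
        _ ≤ _ := by
            refine mul_le_mul_of_nonneg_left ?_ (by positivity)
            exact Finset.sum_le_sum_of_subset_of_nonneg
              (f := fun j => ‖comp (ξ j) v - comp (ξ j) w‖ ^ p) (Finset.subset_univ _)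
              fun j _ _ => Real.rpow_nonneg (norm_nonneg _) _
    linarith

end Vale.Agent.P249.Sqrt
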