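import Vale.Agent.P249.Sqrt.Level

/-!
Activation of levels and the slope of all levels in one residue class.
-/

namespace Vale.Agent.P249.Sqrt

open Finset Vale.Agent.P249.Sub Vale.Agent.P249.Pow

lemma zpow_add_nat (a : ℤ) (k : ℕ) : (2 : ℝ) ^ (a + k) = 2 ^ k * (2 : ℝ) ^ a := by
  rw [zpow_add₀ two_ne_zero, zpow_natCast, mul_comm]

lemma exists_count_good {V : Type*} [Fintype V] [PseudoMetricSpace V] (v : V) {L Lam : ℕ}
    (hlogn : Real.log (Fintype.card V) ≤ (Lam : ℝ) * L) (hLam : 1 ≤ Lam) (b : ℤ) :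
    3 * L ≤ 4 * ((Finset.Icc b (b + L - 1)).filter fun a =>
      logBall v (4 * (2 : ℝ) ^ a) - logBall v ((2 : ℝ) ^ a / 4) ≤ 16 * Lam).card := by
  classical
  set S := Finset.Icc b (b + L - 1) with hS
  set good := S.filter fun a =>
      logBall v (4 * (2 : ℝ) ^ a) - logBall v ((2 : ℝ) ^ a / 4) ≤ 16 * Lam
  set bad := S.filter fun a =>
      ¬ logBall v (4 * (2 : ℝ) ^ a) - logBall v ((2 : ℝ) ^ a / 4) ≤ 16 * Lam with hbad
  have hsplit : good.card + bad.card = S.card := Finset.card_filter_add_card_filter_not _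
  have hScard : S.card = L := by rw [hS, Int.card_Icc]; omega
  let g : ℕ → ℝ := fun i => logBall v ((2 : ℝ) ^ (b + i - 2))
  have hg : Monotone g := fun i i' h => logBall_mono v
    (zpow_le_zpow_right₀ one_le_two (by omega))
  have hSimg : S = (range L).image fun i : ℕ => b + (i : ℤ) := by
    ext a
    simp only [hS, Finset.mem_Icc, Finset.mem_image, Finset.mem_range]
    constructor
    · intro h; exact ⟨(a - b).toNat, by omega, by omega⟩
    · rintro ⟨i, hi, rfl⟩; omega
  have htot : ∑ a ∈ S, (logBall v (4 * (2 : ℝ) ^ a) - logBall v ((2 : ℝ) ^ a / 4)) ≤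
      4 * ((Lam : ℝ) * L) := by
    rw [hSimg, Finset.sum_image (fun i _ i' _ h => by simpa using h)]
    refine le_trans (le_of_eq (Finset.sum_congr rfl fun i _ => ?_)) ((sum_shift_le hg L 4).trans ?_)
    · simp only [g]
      have e1 : (4 : ℝ) * (2 : ℝ) ^ (b + (i : ℤ)) = 2 ^ (b + ((i + 4 : ℕ) : ℤ) - 2) := by
        rw [show b + ((i + 4 : ℕ) : ℤ) - 2 = b + (i : ℤ) + ((2 : ℕ) : ℤ) by push_cast; ring,
          zpow_add₀ two_ne_zero _ ((2 : ℕ) : ℤ), zpow_natCast]
        ring
      have e2 : (2 : ℝ) ^ (b + (i : ℤ)) / 4 = 2 ^ (b + (i : ℤ) - 2) := by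
        rw [zpow_sub₀ two_ne_zero]; norm_num
      rw [e1, e2]
    · push_cast
      refine mul_le_mul_of_nonneg_left (le_trans ?_ hlogn) (by norm_num)
      have h1 := logBall_le v ((2 : ℝ) ^ (b + ((L + 4 : ℕ) : ℤ) - 2))
      have h2 := logBall_nonneg v ((2 : ℝ) ^ (b + ((0 : ℕ) : ℤ) - 2))
      simp only [g] at *
      linarith
  have hb : (bad.card : ℝ) * (16 * Lam) ≤ 4 * ((Lam : ℝ) * L) := by
    refine le_trans ?_ (le_trans (Finset.sum_le_sum_of_subset_of_nonneg
      (show bad ⊆ S from Finset.filter_subset _ _) fun a _ _ => sub_nonneg.2 (logBall_mono v ?_)) htot)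
    · rw [← nsmul_eq_mul]
      exact Finset.card_nsmul_le_sum _ _ _ fun a ha => le_of_not_ge (Finset.mem_filter.1 ha).2
    · have : (0 : ℝ) < (2 : ℝ) ^ a := zpow_pos two_pos _
      linarith
  have hLamR : (0 : ℝ) < Lam := Nat.cast_pos.2 hLam
  have h4 : (4 * bad.card : ℕ) ≤ L := by
    have : ((4 * bad.card : ℕ) : ℝ) * Lam ≤ (L : ℝ) * Lam := by push_cast; linarith
    exact_mod_cast le_of_mul_le_mul_right this hLamR
  omega

lemma sum_residue_le {g : ℤ → ℝ} (hg : Monotone g) {B : ℝ} (hB : ∀ a b, g a - g b ≤ B)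
    {per : ℕ} (hper : 0 < per) {r : ℤ} (S : Finset ℤ) (hS : ∀ a ∈ S, a % (per : ℤ) = r) :
    ∑ a ∈ S, (g (a + per) - g a) ≤ 3 * B := by
  have hperz : (0 : ℤ) < per := by exact_mod_cast hper
  let h : ℤ → ℝ := fun b => g ((per : ℤ) * b + r)
  have hh : Monotone h := fun i i' hii => hg (by
    have := mul_le_mul_of_nonneg_left hii hperz.le
    omega)
  have key : ∀ a ∈ S, a = (per : ℤ) * (a / (per : ℤ)) + r := fun a ha => by
    have := Int.emod_add_ediv_mul a (per : ℤ)
    rw [hS a ha] at this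
    linarith
  calc ∑ a ∈ S, (g (a + per) - g a) ≤ ∑ a ∈ S, (h (a / (per : ℤ) + 3) - h (a / (per : ℤ))) := by
        refine Finset.sum_le_sum fun a ha => sub_le_sub (hg ?_) (hg ?_)
        · have := key a ha; rw [mul_add]; omega
        · have := key a ha; omega
    _ = ∑ b ∈ S.image (· / (per : ℤ)), (h (b + 3) - h b) :=
        (Finset.sum_image (f := fun b => h (b + 3) - h b) (fun a ha a' ha' e => by
          rw [key a ha, key a' ha', e])).symm
    _ ≤ 3 * B := sum_window_le hh (fun a b => hB _ _) _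

/-- Activation of level `a`. -/
noncomputable def act {V : Type*} {k : ℕ} (L : ℕ) (r : Fin (k + 1) → V → ℝ) (a : ℤ) (v : V) : ℝ :=
  (univ : Finset (Fin (k + 1))).sup' Finset.univ_nonempty
    fun i => levelBumpW L (r i v / (2 ^ (13 * L) * (2 : ℝ) ^ a))

section act

variable {V : Type*} {k : ℕ} {L : ℕ} {r : Fin (k + 1) → V → ℝ}

lemma act_nonneg (a : ℤ) (v : V) : 0 ≤ act L r a v :=
  le_trans (levelBumpW_nonneg _ _) (Finset.le_sup' (fun i => levelBumpW L
    (r i v / (2 ^ (13 * L) * (2 : ℝ) ^ a))) (Finset.mem_univ 0))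

lemma act_le_one (a : ℤ) (v : V) : act L r a v ≤ 1 :=
  Finset.sup'_le _ _ fun i _ => levelBumpW_le_one _ _

lemma act_eq_one {a : ℤ} {v : V} {i : Fin (k + 1)} (h1 : 2 ^ (13 * L) * (2 : ℝ) ^ a ≤ r i v)
    (h2 : r i v ≤ 2 ^ (14 * L) * (2 : ℝ) ^ a) : act L r a v = 1 := by
  refine le_antisymm (act_le_one a v) (le_trans (le_of_eq (Eq.symm ?_)) (Finset.le_sup'
    (fun i => levelBumpW L (r i v / (2 ^ (13 * L) * (2 : ℝ) ^ a))) (Finset.mem_univ i)))
  have hpos : 0 < 2 ^ (13 * L) * (2 : ℝ) ^ a := mul_pos (by positivity) (zpow_pos two_pos _)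
  refine levelBumpW_eq_one ?_ ?_
  · rw [le_div_iff₀ hpos, one_mul]; exact h1
  · rw [div_le_iff₀ hpos, ← mul_assoc, ← pow_add, show L + 13 * L = 14 * L by ring]
    exact h2

lemma act_lip [PseudoMetricSpace V] (hL : 1 ≤ L) (hrL : ∀ i v w, |r i v - r i w| ≤ dist v w)
    (a : ℤ) (v w : V) : |act L r a v - act L r a w| * (16 * (2 : ℝ) ^ a) ≤
      dist v w * (32 / 2 ^ (13 * L)) := by
  have hRp : (0 : ℝ) < (2 : ℝ) ^ a := zpow_pos two_pos _
  have key : ∀ v w, (act L r a v - act L r a w) * (16 * (2 : ℝ) ^ a) ≤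
      dist v w * (32 / 2 ^ (13 * L)) := by
    intro v w
    obtain ⟨i, -, hi⟩ := Finset.exists_mem_eq_sup' (Finset.univ_nonempty (α := Fin (k + 1)))
      fun i => levelBumpW L (r i v / (2 ^ (13 * L) * (2 : ℝ) ^ a))
    have h1 : act L r a v - act L r a w ≤ 2 * |r i v / (2 ^ (13 * L) * (2 : ℝ) ^ a) -
        r i w / (2 ^ (13 * L) * (2 : ℝ) ^ a)| := by
      refine le_trans ?_ ((le_abs_self _).trans (levelBumpW_lip L _ _))
      simp only [act]
      rw [hi]
      exact sub_le_sub_left (Finset.le_sup' (fun i => levelBumpW L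
        (r i w / (2 ^ (13 * L) * (2 : ℝ) ^ a))) (Finset.mem_univ i)) _
    refine (mul_le_mul_of_nonneg_right h1 (by positivity)).trans ?_
    rw [← sub_div, abs_div, abs_of_pos (by positivity : (0 : ℝ) < 2 ^ (13 * L) * (2 : ℝ) ^ a)]
    calc 2 * (|r i v - r i w| / (2 ^ (13 * L) * (2 : ℝ) ^ a)) * (16 * (2 : ℝ) ^ a)
        = |r i v - r i w| * (32 / 2 ^ (13 * L)) := by field_simp; ring
      _ ≤ _ := mul_le_mul_of_nonneg_right (hrL i v w) (by positivity)
  rcases abs_cases (act L r a v - act L r a w) with ⟨e, -⟩ | ⟨e, -⟩ <;> rw [e]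
  · exact key v w
  · rw [neg_sub, dist_comm]; exact key w v

lemma act_range {a : ℤ} {v : V} (hr : ∀ i v, 0 < r i v) (h : 0 < act L r a v) :
    ∃ i, Int.log 2 (r i v) - 14 * L - 1 ≤ a ∧ a ≤ Int.log 2 (r i v) - 13 * L + 1 := by
  obtain ⟨i, -, hi⟩ := (Finset.lt_sup'_iff _).1 h
  obtain ⟨h1, h2⟩ := of_levelBumpW_pos hi
  have hpos : 0 < 2 ^ (13 * L) * (2 : ℝ) ^ a := mul_pos (by positivity) (zpow_pos two_pos _)
  rw [mul_div_assoc', lt_div_iff₀ hpos, one_mul, ← zpow_add_nat] at h1
  rw [div_lt_iff₀ hpos, ← zpow_add_nat] at h2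
  have h3 : (2 : ℝ) ^ Int.log 2 (r i v) ≤ r i v := by
    exact_mod_cast Int.zpow_log_le_self one_lt_two (hr i v)
  have h4 : r i v < (2 : ℝ) ^ (Int.log 2 (r i v) + 1) := by
    exact_mod_cast Int.lt_zpow_succ_log_self one_lt_two (r i v)
  refine ⟨i, ?_, ?_⟩
  · have h5 : (2 : ℝ) ^ Int.log 2 (r i v) <
        (2 : ℝ) ^ (a + ((13 * L : ℕ) : ℤ) + (L : ℤ) + 1) := by
      rw [zpow_add_one₀ two_ne_zero, zpow_add_nat _ L]; linarith
    have := (zpow_lt_zpow_iff_right₀ one_lt_two).1 h5
    push_cast at this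
    omega
  · have h5 : (2 : ℝ) ^ (a + ((13 * L : ℕ) : ℤ)) <
        (2 : ℝ) ^ (Int.log 2 (r i v) + 1 + 1) := by
      rw [zpow_add_one₀ two_ne_zero]; linarith
    have := (zpow_lt_zpow_iff_right₀ one_lt_two).1 h5
    push_cast at this
    omega

end act

/-- Residue class of a level. -/
def resOf (per : ℕ) (hper : 0 < per) (a : ℤ) : Fin per :=
  ⟨(a % (per : ℤ)).toNat, by
    have h1 := Int.emod_nonneg a (show (per : ℤ) ≠ 0 by omega)
    have h2 := Int.emod_lt_of_pos a (show (0 : ℤ) < (per : ℤ) by omega)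
    omega⟩

lemma resOf_inj {per : ℕ} (hper : 0 < per) {a b : ℤ} (h : resOf per hper a = resOf per hper b)
    (hab : |a - b| < (per : ℤ)) : a = b := by
  simp only [resOf, Fin.mk.injEq] at h
  have h1 := Int.emod_nonneg a (show (per : ℤ) ≠ 0 by omega)
  have h2 := Int.emod_nonneg b (show (per : ℤ) ≠ 0 by omega)
  have h4 := Int.emod_eq_emod_iff_emod_sub_eq_zero.1
    (show a % (per : ℤ) = b % (per : ℤ) by omega)
  have := Int.eq_zero_of_abs_lt_dvd (Int.dvd_of_emod_eq_zero h4) hab
  omega

variable {p : ℝ} [hp : Fact (1 ≤ ENNReal.ofReal p)]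

/-- Upper bound for the levels in one residue class. -/
lemma sum_levels_le {V : Type*} [Fintype V] [MetricSpace V] {L Lam k d : ℕ} {K : ℝ} (hL : 4 ≤ L)
    (hlogn : Real.log (Fintype.card V) ≤ (Lam : ℝ) * L) (hK : 0 ≤ K)
    {r : Fin (k + 1) → V → ℝ} (hr : ∀ i v, 0 < r i v)
    (hrL : ∀ i v w, |r i v - r i w| ≤ dist v w) (Φ : ℤ → V → Ell p (Fin d))
    (hΦn : ∀ a v, ‖Φ a v‖ ≤ 16 * (2 : ℝ) ^ a)
    (hΦlip : ∀ a v w, ‖Φ a v - Φ a w‖ ≤ K * slope0 Lam * dist v w)
    (hΦgrowth : ∀ a v w, 4 * dist v w ≤ (2 : ℝ) ^ a / 2 ^ (9 * L) → ‖Φ a v - Φ a w‖ ≤ 180 * K *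
      ((logBall v (4 * (2 ^ L * ((2 : ℝ) ^ a / 2 ^ (9 * L)))) -
        logBall v ((2 : ℝ) ^ a / 2 ^ (9 * L) / 2)) / L) * dist v w)
    (A0 : Finset ℤ) {perX : ℕ} (hperX : perX = L + 4) (hperpos : 0 < perX) (t : Fin perX) {v w : V} (hvw : v ≠ w) :
    ∑ a ∈ A0.filter (fun a => resOf perX hperpos a = t),
      ‖act L r a v • Φ a v - act L r a w • Φ a w‖ ≤
      (14 + 10 * K * slope0 Lam + 2 * ((k : ℝ) + 1) + 540 * K * Lam) * dist v w := by
  classical
  set n := Fintype.card V with hn'
  have hLp : (0 : ℝ) < L := Nat.cast_pos.2 (by omega)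
  let R : ℤ → ℝ := fun a => (2 : ℝ) ^ a
  set C0 := slope0 Lam with hC0
  have hC01 : 24 ≤ C0 := by
    rw [hC0, slope0]; linarith [(Nat.cast_nonneg Lam : (0 : ℝ) ≤ Lam)]
  let term : ℤ → V → Ell p (Fin d) := fun a v => act L r a v • Φ a v
  have htermn : ∀ a u, ‖term a u‖ ≤ 16 * R a := fun a u => by
    simp only [term]
    rw [norm_smul, Real.norm_of_nonneg (act_nonneg a u)]
    exact (mul_le_of_le_one_left (norm_nonneg _) (act_le_one a u)).trans (hΦn a u)
  have hterm : ∀ a, ‖term a v - term a w‖ ≤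
      (if 0 < act L r a v ∨ 0 < act L r a w then dist v w else 0) + ‖Φ a v - Φ a w‖ := by
    intro a
    by_cases hc : 0 < act L r a v ∨ 0 < act L r a w
    · rw [if_pos hc]
      simp only [term]
      rw [show act L r a v • Φ a v - act L r a w • Φ a w =
        (act L r a v - act L r a w) • Φ a v + act L r a w • (Φ a v - Φ a w) by
          rw [sub_smul, smul_sub]; abel]
      refine (norm_add_le _ _).trans (add_le_add ?_ ?_)
      · rw [norm_smul, Real.norm_eq_abs]
        refine (mul_le_mul_of_nonneg_left (hΦn a v) (abs_nonneg _)).trans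
          ((act_lip (show 1 ≤ L by omega) hrL a v w).trans ?_)
        refine mul_le_of_le_one_right dist_nonneg ?_
        rw [div_le_one (by positivity)]
        calc (32 : ℝ) = 2 ^ 5 := by norm_num
          _ ≤ _ := pow_le_pow_right₀ one_le_two (by omega)
      · rw [norm_smul, Real.norm_of_nonneg (act_nonneg a w)]
        exact mul_le_of_le_one_left (norm_nonneg _) (act_le_one a w)
    · rw [not_or] at hc
      have e0 : ∀ u, ¬ 0 < act L r a u → term a u = 0 := fun u h => by
        simp [term, le_antisymm (le_of_not_gt h) (act_nonneg a u)]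
      rw [e0 v hc.1, e0 w hc.2, sub_zero, norm_zero, if_neg (not_or.2 hc)]
      linarith [norm_nonneg (Φ a v - Φ a w)]
  change ∑ a ∈ A0.filter (fun a => resOf perX hperpos a = t), ‖term a v - term a w‖ ≤ _
  set D := dist v w with hD
  have hD0 : 0 < D := dist_pos.2 hvw
  set am := Int.log 2 (D / 16) with ham
  have ham1 : (2 : ℝ) ^ am ≤ D / 16 := by
    exact_mod_cast Int.zpow_log_le_self one_lt_two (show 0 < D / 16 by positivity)
  have ham2 : D / 16 < (2 : ℝ) ^ (am + 1) := by
    exact_mod_cast Int.lt_zpow_succ_log_self one_lt_two (D / 16)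
  set S := A0.filter fun a => resOf perX hperpos a = t with hS
  rw [← Finset.sum_filter_add_sum_filter_not S (fun a => a ≤ am),
    ← Finset.sum_filter_add_sum_filter_not (S.filter fun a => ¬ a ≤ am)
      (fun a => a ≤ am + 9 * L + 7)]
  have h1 : ∑ a ∈ S.filter (fun a => a ≤ am), ‖term a v - term a w‖ ≤ 4 * D := by
    calc ∑ a ∈ S.filter (fun a => a ≤ am), ‖term a v - term a w‖
        ≤ ∑ a ∈ S.filter (fun a => a ≤ am), 32 * scale 1 a := by
          refine Finset.sum_le_sum fun a _ => (norm_sub_le _ _).trans ?_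
          have e : scale 1 a = R a := by simp [scale, R]
          rw [e]
          linarith [htermn a v, htermn a w]
      _ ≤ 32 * (2 * scale 1 am) := by
          rw [← Finset.mul_sum]
          exact mul_le_mul_of_nonneg_left (sum_scale_le le_rfl _ _ fun a ha =>
            (Finset.mem_filter.1 ha).2) (by norm_num)
      _ ≤ 4 * D := by
          have e : scale 1 am = (2 : ℝ) ^ am := by simp [scale]
          rw [e]
          linarith
  have h2 : ∑ a ∈ (S.filter fun a => ¬ a ≤ am).filter (fun a => a ≤ am + 9 * L + 7),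
      ‖term a v - term a w‖ ≤ 10 * (D + K * C0 * D) := by
    refine (Finset.sum_le_sum (g := fun _ => D + K * C0 * D) fun a _ =>
      (hterm a).trans (add_le_add ?_ (hΦlip a v w))).trans ?_
    · split <;> linarith
    rw [Finset.sum_const, nsmul_eq_mul]
    refine mul_le_mul_of_nonneg_right ?_ (by positivity)
    have hcard : ((S.filter fun a => ¬ a ≤ am).filter fun a => a ≤ am + 9 * L + 7).card ≤
        (range 10).card := by
      refine Finset.card_le_card_of_injOn (fun a => ((a - am - 1) / (perX : ℤ)).toNat)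
        (fun a ha => ?_) (fun a ha b hb h => ?_)
      · simp only [hS, Finset.coe_filter, Finset.mem_filter, Set.mem_ofPred_eq] at ha
        simp only [Finset.coe_range, Set.mem_Iio]
        have : (a - am - 1) / (perX : ℤ) < 10 := by
          rw [Int.ediv_lt_iff_lt_mul (by omega)]; push_cast [hperX]; omega
        omega
      · simp only [hS, Finset.coe_filter, Finset.mem_filter, Set.mem_ofPred_eq] at ha hb
        refine resOf_inj hperpos (ha.1.1.2.trans hb.1.1.2.symm) ?_
        have hpz : (0 : ℤ) < perX := by omega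
        have ha0 := Int.ediv_nonneg (show 0 ≤ a - am - 1 by omega) hpz.le
        have hb0 := Int.ediv_nonneg (show 0 ≤ b - am - 1 by omega) hpz.le
        have heq : (a - am - 1) / (perX : ℤ) = (b - am - 1) / (perX : ℤ) := by
          simp only at h
          omega
        have e1 := Int.emod_add_ediv_mul (a - am - 1) (perX : ℤ)
        have e2 := Int.emod_add_ediv_mul (b - am - 1) (perX : ℤ)
        have := Int.emod_nonneg (a - am - 1) hpz.ne'
        have := Int.emod_nonneg (b - am - 1) hpz.ne'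
        have := Int.emod_lt_of_pos (a - am - 1) hpz
        have := Int.emod_lt_of_pos (b - am - 1) hpz
        rw [heq] at e1
        rw [abs_lt]
        omega
    rw [Finset.card_range] at hcard
    exact_mod_cast hcard
  have h3 : ∑ a ∈ (S.filter fun a => ¬ a ≤ am).filter (fun a => ¬ a ≤ am + 9 * L + 7),
      ‖term a v - term a w‖ ≤ 2 * ((k : ℝ) + 1) * D + 540 * K * Lam * D := by
    set S' := (S.filter fun a => ¬ a ≤ am).filter fun a => ¬ a ≤ am + 9 * L + 7 with hS'
    have hsplit : ∑ a ∈ S', ‖term a v - term a w‖ ≤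
        (∑ a ∈ S', if 0 < act L r a v ∨ 0 < act L r a w then D else 0) +
        ∑ a ∈ S', ‖Φ a v - Φ a w‖ := by
      rw [← Finset.sum_add_distrib]
      exact Finset.sum_le_sum fun a _ => hterm a
    refine hsplit.trans (add_le_add ?_ ?_)
    · rw [← Finset.sum_filter, Finset.sum_const, nsmul_eq_mul]
      refine mul_le_mul_of_nonneg_right ?_ hD0.le
      have hsub : ∀ u : V, (S.filter fun a => 0 < act L r a u).card ≤ k + 1 := by
        intro u
        refine le_trans (Finset.card_le_card (t := (univ : Finset (Fin (k + 1))).biUnion fun i =>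
          S.filter fun a => Int.log 2 (r i u) - 14 * L - 1 ≤ a ∧ a ≤ Int.log 2 (r i u) - 13 * L + 1) ?_) ?_
        · intro a ha
          obtain ⟨haS, hau⟩ := Finset.mem_filter.1 ha
          obtain ⟨i, hi⟩ := act_range hr hau
          exact Finset.mem_biUnion.2 ⟨i, Finset.mem_univ i, Finset.mem_filter.2 ⟨haS, hi⟩⟩
        · refine le_trans (Finset.card_biUnion_le_card_mul _ _ 1 fun i _ => ?_) (by simp)
          refine Finset.card_le_one.2 fun a ha b hb => ?_
          simp only [hS, Finset.mem_filter] at ha hb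
          refine resOf_inj hperpos (ha.1.2.trans hb.1.2.symm) ?_
          rw [abs_lt]
          omega
      have hc : (S'.filter fun a => 0 < act L r a v ∨ 0 < act L r a w).card ≤ 2 * (k + 1) := by
        refine le_trans (Finset.card_le_card (t := (S.filter fun a => 0 < act L r a v) ∪
          S.filter fun a => 0 < act L r a w) fun a ha => ?_) ?_
        · simp only [hS', Finset.mem_filter, Finset.mem_union] at ha ⊢
          rcases ha.2 with h | h
          · exact Or.inl ⟨ha.1.1.1, h⟩
          · exact Or.inr ⟨ha.1.1.1, h⟩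
        · exact (Finset.card_union_le _ _).trans (by linarith [hsub v, hsub w])
      calc ((S'.filter fun a => 0 < act L r a v ∨ 0 < act L r a w).card : ℝ)
          ≤ ((2 * (k + 1) : ℕ) : ℝ) := by exact_mod_cast hc
        _ = _ := by push_cast; ring
    · let g : ℤ → ℝ := fun a => logBall v ((2 : ℝ) ^ (a - (9 * L : ℕ) - 1))
      calc ∑ a ∈ S', ‖Φ a v - Φ a w‖
          ≤ ∑ a ∈ S', 180 * K * D / L * (g (a + perX) - g a) := by
            refine Finset.sum_le_sum fun a ha => ?_
            simp only [hS', Finset.mem_filter] at ha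
            have e0 : R a = 2 ^ (9 * L) * (2 : ℝ) ^ (a - (9 * L : ℕ)) := by
              rw [← zpow_add_nat, sub_add_cancel]
            have eT : R a / 2 ^ (9 * L) = (2 : ℝ) ^ (a - (9 * L : ℕ)) := by
              rw [e0]; field_simp
            have hcond : 4 * dist v w ≤ R a / 2 ^ (9 * L) := by
              rw [eT, ← hD]
              have h5 : (2 : ℝ) ^ (am + 1 + ((6 : ℕ) : ℤ)) ≤ (2 : ℝ) ^ (a - (9 * L : ℕ)) :=
                zpow_le_zpow_right₀ one_le_two (by push_cast; omega)
              rw [zpow_add_nat] at h5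
              linarith
            refine (hΦgrowth a v w hcond).trans ?_
            rw [eT, ← hD, show 180 * K * D / L * (g (a + perX) - g a) =
              180 * K * ((g (a + perX) - g a) / L) * D by ring]
            have eg : g a = logBall v ((2 : ℝ) ^ (a - (9 * L : ℕ)) / 2) := by
              simp only [g]; rw [zpow_sub_one₀ two_ne_zero]; rfl
            rw [eg]
            refine mul_le_mul_of_nonneg_right (mul_le_mul_of_nonneg_left (div_le_div_of_nonneg_right
              (sub_le_sub_right (logBall_mono v ?_) _) hLp.le) (by positivity)) hD0.le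
            rw [show a + (perX : ℤ) - (9 * L : ℕ) - 1 =
              a - (9 * L : ℕ) + ((L + 3 : ℕ) : ℤ) by push_cast [hperX]; ring, zpow_add_nat,
              pow_add]
            have h6 : 0 < (2 : ℝ) ^ L * (2 : ℝ) ^ (a - (9 * L : ℕ)) :=
              mul_pos (by positivity) (zpow_pos two_pos _)
            linarith
        _ = 180 * K * D / L * ∑ a ∈ S', (g (a + perX) - g a) := by rw [Finset.mul_sum]
        _ ≤ 180 * K * D / L * (3 * Real.log n) := by
            have hgm : Monotone g := fun i i' h => logBall_mono v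
              (zpow_le_zpow_right₀ one_le_two (by omega))
            refine mul_le_mul_of_nonneg_left (sum_residue_le (B := Real.log n) hgm (fun a b => ?_) hperpos
              (r := ((t : ℕ) : ℤ)) S' fun a ha => ?_) (by positivity)
            · simp only [g]
              linarith [logBall_le v ((2 : ℝ) ^ (a - (9 * L : ℕ) - 1)),
                logBall_nonneg v ((2 : ℝ) ^ (b - (9 * L : ℕ) - 1))]
            · simp only [hS', hS, Finset.mem_filter] at ha
              rw [← ha.1.1.2]
              simp only [resOf]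
              have h1 := Int.emod_nonneg a (show (perX : ℤ) ≠ 0 by omega)
              omega
        _ ≤ 180 * K * D / L * (3 * ((Lam : ℝ) * L)) := by gcongr
        _ = 540 * K * Lam * D := by field_simp; ring
  linarith

end Vale.Agent.P249.Sqrt
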